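import Vale.Agent.P296.Algebra.Interface

/-!
Graded spaces of functions on the cone and on the curve.
-/

namespace Vale.Agent.P296.Alg

open Polynomial

/-- Points of the cone. -/
structure Pt where
  z : Fin 2 → ℂ
  t : Fin 2 → ℂ
  u : ℂ
  v : ℂ
  h : OnCone z t u v

/-- Points of the curve. -/
structure CPt where
  t : Fin 2 → ℂ
  u : ℂ
  v : ℂ
  h : OnCone t t u v

/-- The diagonal. -/
def CPt.toPt (p : CPt) : Pt := ⟨p.t, p.t, p.u, p.v, p.h⟩

abbrev Fn : Type := Pt → ℂ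

abbrev CFn : Type := CPt → ℂ

def fz (b : Fin 2) : Fn := fun p => p.z b

def ft (b : Fin 2) : Fn := fun p => p.t b

def fu : Fn := fun p => p.u

def fv : Fn := fun p => p.v

/-- The equation of the diagonal. -/
def fF : Fn := fun p => p.z 0 * p.t 1 - p.z 1 * p.t 0

def ct (b : Fin 2) : CFn := fun p => p.t b

def cu : CFn := fun p => p.u

def cv : CFn := fun p => p.v

/-- Restriction to the diagonal. -/
def diag : Fn →ₐ[ℂ] CFn :=
  Pi.algHom ℂ (fun _ : CPt => ℂ) fun p => Pi.evalAlgHom ℂ (fun _ : Pt => ℂ) p.toPt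

@[simp] lemma diag_apply (f : Fn) (p : CPt) : diag f p = f p.toPt := rfl

@[simp] lemma diag_fz (b : Fin 2) : diag (fz b) = ct b := rfl

@[simp] lemma diag_ft (b : Fin 2) : diag (ft b) = ct b := rfl

@[simp] lemma diag_fu : diag fu = cu := rfl

@[simp] lemma diag_fv : diag fv = cv := rfl

@[simp] lemma diag_fF : diag fF = 0 := by
  funext p; simp [fF, CPt.toPt]; ring

lemma fu_sq : fu ^ 2 = ft 1 ^ 6 - ft 0 ^ 6 := funext fun p => p.h.hu

lemma fv_sq : fv ^ 2 = ft 1 ^ 6 + ft 0 ^ 6 := funext fun p => p.h.hv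

lemma cu_sq : cu ^ 2 = ct 1 ^ 6 - ct 0 ^ 6 := funext fun p => p.h.hu

lemma cv_sq : cv ^ 2 = ct 1 ^ 6 + ct 0 ^ 6 := funext fun p => p.h.hv

/-- Monomials on the cone. -/
def wmon (a a' c c' e e' : ℕ) : Fn :=
  fz 0 ^ a * fz 1 ^ a' * ft 0 ^ c * ft 1 ^ c' * fu ^ e * fv ^ e'

/-- Monomials on the curve. -/
def vmon (a c e e' : ℕ) : CFn := ct 0 ^ a * ct 1 ^ c * cu ^ e * cv ^ e'

def wSet (π : ZMod 2) (A B : ℕ) : Set Fn :=
  {f | ∃ a a' c c' e e' : ℕ, a + a' = A ∧ c + c' + 3 * (e + e') = B ∧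
    ((e + e' : ℕ) : ZMod 2) = π ∧ f = wmon a a' c c' e e'}

def vSet (π : ZMod 2) (n : ℕ) : Set CFn :=
  {f | ∃ a c e e' : ℕ, a + c + 3 * (e + e') = n ∧
    ((e + e' : ℕ) : ZMod 2) = π ∧ f = vmon a c e e'}

/-- Bihomogeneous functions with parity. -/
def W (π : ZMod 2) (A B : ℕ) : Submodule ℂ Fn := Submodule.span ℂ (wSet π A B)

/-- Homogeneous functions on the curve with parity. -/
def V (π : ZMod 2) (n : ℕ) : Submodule ℂ CFn := Submodule.span ℂ (vSet π n)

lemma wmon_mem {π : ZMod 2} {A B : ℕ} (a a' c c' e e' : ℕ) (hA : a + a' = A)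
    (hB : c + c' + 3 * (e + e') = B) (hπ : ((e + e' : ℕ) : ZMod 2) = π) :
    wmon a a' c c' e e' ∈ W π A B :=
  Submodule.subset_span ⟨a, a', c, c', e, e', hA, hB, hπ, rfl⟩

lemma vmon_mem {π : ZMod 2} {n : ℕ} (a c e e' : ℕ) (hn : a + c + 3 * (e + e') = n)
    (hπ : ((e + e' : ℕ) : ZMod 2) = π) : vmon a c e e' ∈ V π n :=
  Submodule.subset_span ⟨a, c, e, e', hn, hπ, rfl⟩

lemma W_congr {π π' : ZMod 2} {A B A' B' : ℕ} {f : Fn} (h : f ∈ W π A B) (h1 : π = π')
    (h2 : A = A') (h3 : B = B') : f ∈ W π' A' B' := by subst h1 h2 h3; exact h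

lemma V_congr {π π' : ZMod 2} {n n' : ℕ} {f : CFn} (h : f ∈ V π n) (h1 : π = π')
    (h2 : n = n') : f ∈ V π' n' := by subst h1 h2; exact h

lemma W_mul {π π' : ZMod 2} {A B A' B' : ℕ} {f g : Fn} (hf : f ∈ W π A B) (hg : g ∈ W π' A' B') :
    f * g ∈ W (π + π') (A + A') (B + B') := by
  refine (Submodule.span_mul_span ℂ (wSet π A B) (wSet π' A' B')).le.trans ?_
    (Submodule.mul_mem_mul hf hg)
  refine Submodule.span_le.2 ?_
  rintro x ⟨f, ⟨a, a', c, c', e, e', h1, h2, h3, rfl⟩, g, ⟨b, b', d, d', i, i', g1, g2, g3, rfl⟩, rfl⟩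
  have : wmon a a' c c' e e' * wmon b b' d d' i i' =
      wmon (a + b) (a' + b') (c + d) (c' + d') (e + i) (e' + i') := by
    simp only [wmon, pow_add]; ring
  simp only [SetLike.mem_coe, this]
  refine wmon_mem _ _ _ _ _ _ (by omega) (by omega) ?_
  rw [← h3, ← g3]; push_cast; ring

lemma V_mul {π π' : ZMod 2} {n n' : ℕ} {f g : CFn} (hf : f ∈ V π n) (hg : g ∈ V π' n') :
    f * g ∈ V (π + π') (n + n') := by
  refine (Submodule.span_mul_span ℂ (vSet π n) (vSet π' n')).le.trans ?_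
    (Submodule.mul_mem_mul hf hg)
  refine Submodule.span_le.2 ?_
  rintro x ⟨f, ⟨a, c, e, e', h1, h3, rfl⟩, g, ⟨b, d, i, i', g1, g3, rfl⟩, rfl⟩
  have : vmon a c e e' * vmon b d i i' = vmon (a + b) (c + d) (e + i) (e' + i') := by
    simp only [vmon, pow_add]; ring
  simp only [SetLike.mem_coe, this]
  refine vmon_mem _ _ _ _ (by omega) ?_
  rw [← h3, ← g3]; push_cast; ring

lemma one_mem_W : (1 : Fn) ∈ W 0 0 0 := by
  simpa [wmon] using wmon_mem (π := 0) (A := 0) (B := 0) 0 0 0 0 0 0 rfl rfl (by simp)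

lemma one_mem_V : (1 : CFn) ∈ V 0 0 := by
  simpa [vmon] using vmon_mem (π := 0) (n := 0) 0 0 0 0 rfl (by simp)

lemma W_pow {π : ZMod 2} {A B : ℕ} {f : Fn} (hf : f ∈ W π A B) (n : ℕ) :
    f ^ n ∈ W (n • π) (n * A) (n * B) := by
  induction n with
  | zero => simpa using one_mem_W
  | succ n ih =>
    rw [pow_succ]
    exact W_congr (W_mul ih hf) (by rw [succ_nsmul]) (by ring) (by ring)

lemma V_pow {π : ZMod 2} {m : ℕ} {f : CFn} (hf : f ∈ V π m) (n : ℕ) :
    f ^ n ∈ V (n • π) (n * m) := by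
  induction n with
  | zero => simpa using one_mem_V
  | succ n ih =>
    rw [pow_succ]
    exact V_congr (V_mul ih hf) (by rw [succ_nsmul]) (by ring)

lemma fu_mem : fu ∈ W 1 0 3 := by
  simpa [wmon] using wmon_mem (π := 1) (A := 0) (B := 3) 0 0 0 0 1 0 rfl rfl (by simp)

lemma fv_mem : fv ∈ W 1 0 3 := by
  simpa [wmon] using wmon_mem (π := 1) (A := 0) (B := 3) 0 0 0 0 0 1 rfl rfl (by simp)

lemma fz_mem (b : Fin 2) : fz b ∈ W 0 1 0 := by
  fin_cases b
  · simpa [wmon] using wmon_mem (π := 0) (A := 1) (B := 0) 1 0 0 0 0 0 rfl rfl (by simp)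
  · simpa [wmon] using wmon_mem (π := 0) (A := 1) (B := 0) 0 1 0 0 0 0 rfl rfl (by simp)

lemma ft_mem (b : Fin 2) : ft b ∈ W 0 0 1 := by
  fin_cases b
  · simpa [wmon] using wmon_mem (π := 0) (A := 0) (B := 1) 0 0 1 0 0 0 rfl rfl (by simp)
  · simpa [wmon] using wmon_mem (π := 0) (A := 0) (B := 1) 0 0 0 1 0 0 rfl rfl (by simp)

lemma fF_mem : fF ∈ W 0 1 1 := by
  have : fF = fz 0 * ft 1 - fz 1 * ft 0 := rfl
  rw [this]
  exact sub_mem (W_congr (W_mul (fz_mem 0) (ft_mem 1)) (add_zero 0) rfl rfl)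
    (W_congr (W_mul (fz_mem 1) (ft_mem 0)) (add_zero 0) rfl rfl)

lemma cu_mem : cu ∈ V 1 3 := by
  simpa [vmon] using vmon_mem (π := 1) (n := 3) 0 0 1 0 rfl (by simp)

lemma cv_mem : cv ∈ V 1 3 := by
  simpa [vmon] using vmon_mem (π := 1) (n := 3) 0 0 0 1 rfl (by simp)

lemma ct_mem (b : Fin 2) : ct b ∈ V 0 1 := by
  fin_cases b
  · simpa [vmon] using vmon_mem (π := 0) (n := 1) 1 0 0 0 rfl (by simp)
  · simpa [vmon] using vmon_mem (π := 0) (n := 1) 0 1 0 0 rfl (by simp)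

lemma diag_mem {π : ZMod 2} {A B : ℕ} {f : Fn} (hf : f ∈ W π A B) : diag f ∈ V π (A + B) := by
  induction hf using Submodule.span_induction with
  | mem x hx =>
    obtain ⟨a, a', c, c', e, e', h1, h2, h3, rfl⟩ := hx
    have : diag (wmon a a' c c' e e') = vmon (a + c) (a' + c') e e' := by
      simp only [wmon, map_mul, map_pow, diag_fz, diag_ft, diag_fu, diag_fv, vmon, pow_add]; ring
    rw [this]
    exact vmon_mem _ _ _ _ (by omega) h3
  | zero => simp
  | add x y _ _ hx hy => rw [map_add]; exact add_mem hx hy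
  | smul r x _ hx => rw [map_smul]; exact Submodule.smul_mem _ _ hx

/-- Being a polynomial in the six variables. -/
def IsPol (f : Fn) : Prop :=
  ∃ p : MvPolynomial (Fin 6) ℂ,
    ∀ x : Pt, f x = MvPolynomial.eval ![x.z 0, x.z 1, x.t 0, x.t 1, x.u, x.v] p

lemma isPol_of_mem {π : ZMod 2} {A B : ℕ} {f : Fn} (hf : f ∈ W π A B) : IsPol f := by
  induction hf using Submodule.span_induction with
  | mem x hx =>
    obtain ⟨a, a', c, c', e, e', -, -, -, rfl⟩ := hx
    refine ⟨.X 0 ^ a * .X 1 ^ a' * .X 2 ^ c * .X 3 ^ c' * .X 4 ^ e * .X 5 ^ e', fun x => ?_⟩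
    simp [wmon, fz, ft, fu, fv]
  | zero => exact ⟨0, fun x => by simp⟩
  | add x y _ _ hx hy =>
    obtain ⟨p, hp⟩ := hx
    obtain ⟨q, hq⟩ := hy
    exact ⟨p + q, fun a => by simp [hp a, hq a]⟩
  | smul r x _ hx =>
    obtain ⟨p, hp⟩ := hx
    exact ⟨MvPolynomial.C r * p, fun a => by simp [hp a]⟩

/-- Continuity in `z`: equality off the diagonal spreads to the diagonal. -/
lemma eq_on_diag_of_eq_off {f g : (Fin 2 → ℂ) → ℂ} (hf : Continuous f) (hg : Continuous g)
    {t : Fin 2 → ℂ} (ht : t ≠ 0)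
    (h : ∀ z : Fin 2 → ℂ, z ≠ 0 → z 0 * t 1 - z 1 * t 0 ≠ 0 → f z = g z) : f = g := by
  refine Continuous.ext_on ?_ hf hg (s := {z : Fin 2 → ℂ | z 0 * t 1 - z 1 * t 0 ≠ 0})
    (fun z hz => h z (fun h0 => hz (by simp [h0])) hz)
  obtain ⟨w, hw⟩ : ∃ w : Fin 2 → ℂ, w 0 * t 1 - w 1 * t 0 ≠ 0 := by
    by_cases h0 : t 0 = 0
    · refine ⟨![1, 0], ?_⟩
      have : t 1 ≠ 0 := fun h1 => ht (funext fun i => by fin_cases i <;> simp [h0, h1])
      simpa
    · exact ⟨![0, 1], by simpa⟩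
  intro z
  rw [mem_closure_iff_seq_limit]
  by_cases hz : z 0 * t 1 - z 1 * t 0 ≠ 0
  · exact ⟨fun _ => z, fun _ => hz, tendsto_const_nhds⟩
  push Not at hz
  refine ⟨fun n => z + ((1 : ℂ) / ((n : ℂ) + 1)) • w, fun n => ?_, ?_⟩
  · simp only [Set.mem_ofPred_eq, Pi.add_apply, Pi.smul_apply, smul_eq_mul]
    rw [show (z 0 + 1 / ((n : ℂ) + 1) * w 0) * t 1 - (z 1 + 1 / ((n : ℂ) + 1) * w 1) * t 0
      = (z 0 * t 1 - z 1 * t 0) + 1 / ((n : ℂ) + 1) * (w 0 * t 1 - w 1 * t 0) by ring, hz, zero_add]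
    exact mul_ne_zero (one_div_ne_zero (Nat.cast_add_one_ne_zero n)) hw
  · have h1 : Filter.Tendsto (fun n : ℕ => (1 : ℂ) / ((n : ℂ) + 1)) Filter.atTop (nhds 0) :=
      tendsto_one_div_add_atTop_nhds_zero_nat
    simpa using tendsto_const_nhds.add (h1.smul_const w)

lemma IsPol.cancel {f g : Fn} (hf : IsPol f) (hg : IsPol g) (h : ∀ x, fF x ≠ 0 → f x = g x) :
    f = g := by
  obtain ⟨p, hp⟩ := hf
  obtain ⟨q, hq⟩ := hg
  funext x
  rw [hp, hq]
  refine congrFun (eq_on_diag_of_eq_off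
    (f := fun z => MvPolynomial.eval ![z 0, z 1, x.t 0, x.t 1, x.u, x.v] p)
    (g := fun z => MvPolynomial.eval ![z 0, z 1, x.t 0, x.t 1, x.u, x.v] q)
    ?_ ?_ x.h.ht fun z hz hF => ?_) x.z
  · exact (MvPolynomial.continuous_eval p).comp (by fun_prop)
  · exact (MvPolynomial.continuous_eval q).comp (by fun_prop)
  · have h' := h ⟨z, x.t, x.u, x.v, ⟨hz, x.h.ht, x.h.hu, x.h.hv⟩⟩ hF
    rwa [hp, hq] at h'

/-- Normal form on the curve. -/
noncomputable def homPart (P : Polynomial ℂ) (m : ℕ) : CFn :=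
  ∑ j ∈ Finset.range (m + 1), P.coeff j • (ct 0 ^ j * ct 1 ^ (m - j))

/-- `f` has coefficient polynomials `P`. -/
def IsNF (π : ZMod 2) (n : ℕ) (f : CFn) (P : Fin 2 → Fin 2 → Polynomial ℂ) : Prop :=
  (∀ e e' : Fin 2, (3 * (e.val + e'.val) ≤ n ∧ ((e.val + e'.val : ℕ) : ZMod 2) = π) ∨ P e e' = 0) ∧
  (∀ e e' : Fin 2, (P e e').natDegree ≤ n - 3 * (e.val + e'.val)) ∧
  f = ∑ e : Fin 2, ∑ e' : Fin 2,
    cu ^ e.val * cv ^ e'.val * homPart (P e e') (n - 3 * (e.val + e'.val))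

lemma homPart_add (P Q : Polynomial ℂ) (m : ℕ) : homPart (P + Q) m = homPart P m + homPart Q m := by
  simp [homPart, add_smul, Finset.sum_add_distrib]

lemma homPart_smul (r : ℂ) (P : Polynomial ℂ) (m : ℕ) : homPart (r • P) m = r • homPart P m := by
  simp [homPart, Finset.smul_sum, mul_smul]

lemma IsNF.zero (π : ZMod 2) (n : ℕ) : IsNF π n 0 0 :=
  ⟨fun _ _ => Or.inr rfl, fun _ _ => by simp, by simp [homPart]⟩

lemma IsNF.add {π : ZMod 2} {n : ℕ} {f g : CFn} {P Q : Fin 2 → Fin 2 → Polynomial ℂ}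
    (hf : IsNF π n f P) (hg : IsNF π n g Q) : IsNF π n (f + g) (P + Q) := by
  refine ⟨fun e e' => ?_, fun e e' => ?_, ?_⟩
  · rcases hf.1 e e' with h | h
    · exact Or.inl h
    rcases hg.1 e e' with h' | h'
    · exact Or.inl h'
    exact Or.inr (by simp [h, h'])
  · exact natDegree_add_le_of_degree_le (hf.2.1 e e') (hg.2.1 e e')
  · rw [hf.2.2, hg.2.2]
    simp only [Pi.add_apply, homPart_add, mul_add, Finset.sum_add_distrib]

lemma IsNF.smul {π : ZMod 2} {n : ℕ} {f : CFn} {P : Fin 2 → Fin 2 → Polynomial ℂ} (r : ℂ)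
    (hf : IsNF π n f P) : IsNF π n (r • f) (r • P) := by
  refine ⟨fun e e' => (hf.1 e e').imp id fun h => by simp [h],
    fun e e' => (natDegree_smul_le _ _).trans (hf.2.1 e e'), ?_⟩
  rw [hf.2.2]
  simp only [Pi.smul_apply, homPart_smul, mul_smul_comm, Finset.smul_sum]

lemma exists_nf_mon (π : ZMod 2) : ∀ s n a c e e' : ℕ, e + e' = s → a + c + 3 * (e + e') = n →
    ((e + e' : ℕ) : ZMod 2) = π → ∃ P, IsNF π n (vmon a c e e') P := by
  intro s
  induction s using Nat.strong_induction_on with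
  | _ s ih =>
  intro n a c e e' hs hn hπ
  by_cases he : 2 ≤ e
  · obtain ⟨d, rfl⟩ : ∃ d, e = d + 2 := ⟨e - 2, by omega⟩
    have h2 : ((d + e' : ℕ) : ZMod 2) = π := by
      rw [← hπ]; push_cast
      have : (2 : ZMod 2) = 0 := by decide
      linear_combination -this
    obtain ⟨P, hP⟩ := ih (d + e') (by omega) n a (c + 6) d e' rfl (by omega) h2
    obtain ⟨Q, hQ⟩ := ih (d + e') (by omega) n (a + 6) c d e' rfl (by omega) h2
    refine ⟨P + (-1 : ℂ) • Q, ?_⟩
    have : vmon a c (d + 2) e' = vmon a (c + 6) d e' + (-1 : ℂ) • vmon (a + 6) c d e' := by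
      simp only [vmon, pow_add, cu_sq, neg_one_smul]; ring
    rw [this]
    exact hP.add (hQ.smul _)
  by_cases he' : 2 ≤ e'
  · obtain ⟨d, rfl⟩ : ∃ d, e' = d + 2 := ⟨e' - 2, by omega⟩
    have h2 : ((e + d : ℕ) : ZMod 2) = π := by
      rw [← hπ]; push_cast
      have : (2 : ZMod 2) = 0 := by decide
      linear_combination -this
    obtain ⟨P, hP⟩ := ih (e + d) (by omega) n a (c + 6) e d rfl (by omega) h2
    obtain ⟨Q, hQ⟩ := ih (e + d) (by omega) n (a + 6) c e d rfl (by omega) h2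
    refine ⟨P + Q, ?_⟩
    have : vmon a c e (d + 2) = vmon a (c + 6) e d + vmon (a + 6) c e d := by
      simp only [vmon, pow_add, cv_sq]; ring
    rw [this]
    exact hP.add hQ
  set i : Fin 2 := ⟨e, by omega⟩ with hi
  set i' : Fin 2 := ⟨e', by omega⟩ with hi'
  refine ⟨fun x y => if x = i ∧ y = i' then X ^ a else 0, fun x y => ?_, fun x y => ?_, ?_⟩
  · by_cases h : x = i ∧ y = i'
    · obtain ⟨rfl, rfl⟩ := h; exact Or.inl ⟨by simp [hi, hi']; omega, hπ⟩
    · exact Or.inr (if_neg h)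
  · dsimp only
    split_ifs with h
    · obtain ⟨rfl, rfl⟩ := h; rw [natDegree_X_pow]; simp [hi, hi']; omega
    · simp
  · rw [Finset.sum_eq_single i (fun x _ hx => by simp [hx, homPart]) (by simp)]
    rw [Finset.sum_eq_single i' (fun x _ hx => by simp [hx, homPart]) (by simp)]
    simp only [and_self, if_true, homPart, coeff_X_pow, ite_smul, one_smul, zero_smul,
      Finset.sum_ite_eq', Finset.mem_range, hi, hi']
    rw [if_pos (by omega), show n - 3 * (e + e') - a = c by omega]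
    simp only [vmon]; ring

lemma exists_nf {π : ZMod 2} {n : ℕ} {f : CFn} (hf : f ∈ V π n) : ∃ P, IsNF π n f P := by
  induction hf using Submodule.span_induction with
  | mem x hx =>
    obtain ⟨a, c, e, e', h1, h2, rfl⟩ := hx
    exact exists_nf_mon π _ n a c e e' rfl h1 h2
  | zero => exact ⟨0, IsNF.zero π n⟩
  | add x y _ _ hx hy =>
    obtain ⟨P, hP⟩ := hx
    obtain ⟨Q, hQ⟩ := hy
    exact ⟨P + Q, hP.add hQ⟩
  | smul r x _ hx =>
    obtain ⟨P, hP⟩ := hx
    exact ⟨r • P, hP.smul r⟩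

lemma homPart_apply_affine (P : Polynomial ℂ) {m : ℕ} (hP : P.natDegree ≤ m) (p : CPt)
    (h1 : p.t 1 = 1) : homPart P m p = P.eval (p.t 0) := by
  rw [eval_eq_sum_range' (Nat.lt_succ_of_le hP)]
  simp [homPart, ct, h1]

lemma IsNF.eval_affine {π : ZMod 2} {n : ℕ} {f : CFn} {P : Fin 2 → Fin 2 → Polynomial ℂ}
    (hf : IsNF π n f P) (p : CPt) (h1 : p.t 1 = 1) :
    f p = (P 0 0).eval (p.t 0) + p.v * (P 0 1).eval (p.t 0) + p.u * (P 1 0).eval (p.t 0) +
      p.u * p.v * (P 1 1).eval (p.t 0) := by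
  rw [hf.2.2]
  simp only [Finset.sum_apply, Fin.sum_univ_two, Pi.add_apply, Pi.mul_apply, Pi.pow_apply,
    homPart_apply_affine _ (hf.2.1 _ _) p h1]
  simp [cu, cv]; ring

/-- The four components on the curve are independent. -/
lemma split4 {A B C D : Polynomial ℂ} (h : ∀ p : CPt, p.t 1 = 1 →
    A.eval (p.t 0) + p.v * B.eval (p.t 0) + p.u * C.eval (p.t 0)
      + p.u * p.v * D.eval (p.t 0) = 0) : A = 0 ∧ B = 0 ∧ C = 0 ∧ D = 0 := by
  set S : Set ℂ := {x | x ^ 12 ≠ 1} with hS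
  have hinf : S.Infinite := by
    have : ({x : ℂ | x ^ 12 = 1}).Finite := by
      refine Set.Finite.subset ((nthRootsFinset 12 (1 : ℂ)).finite_toSet) fun x hx => ?_
      exact Finset.mem_coe.2 ((mem_nthRootsFinset (by norm_num) 1).2 hx)
    exact this.infinite_compl
  have key : ∀ x ∈ S, A.IsRoot x ∧ B.IsRoot x ∧ C.IsRoot x ∧ D.IsRoot x := by
    intro x hx
    obtain ⟨u, hu⟩ := IsAlgClosed.exists_pow_nat_eq (1 - x ^ 6) (n := 2) (by norm_num)
    obtain ⟨v, hv⟩ := IsAlgClosed.exists_pow_nat_eq (1 + x ^ 6) (n := 2) (by norm_num)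
    have hu0 : u ≠ 0 := by rintro rfl; exact hx (by linear_combination (x ^ 6 + 1) * hu)
    have hv0 : v ≠ 0 := by rintro rfl; exact hx (by linear_combination (1 - x ^ 6) * hv)
    have hpt : ∀ a b : ℂ, a ^ 2 = 1 → b ^ 2 = 1 →
        A.eval x + b * v * B.eval x + a * u * C.eval x + a * u * (b * v) * D.eval x = 0 := by
      intro a b ha hb
      refine h ⟨![x, 1], a * u, b * v, ⟨?_, ?_, ?_, ?_⟩⟩ rfl
      · exact fun h => by simpa using congrFun h 1
      · exact fun h => by simpa using congrFun h 1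
      · simp [mul_pow, ha, hu]
      · simp [mul_pow, hb, hv]
    have e1 := hpt 1 1 (by norm_num) (by norm_num)
    have e2 := hpt 1 (-1) (by norm_num) (by norm_num)
    have e3 := hpt (-1) 1 (by norm_num) (by norm_num)
    have e4 := hpt (-1) (-1) (by norm_num) (by norm_num)
    refine ⟨?_, ?_, ?_, ?_⟩
    · show A.eval x = 0
      linear_combination (e1 + e2 + e3 + e4) / 4
    · have : v * B.eval x = 0 := by linear_combination (e1 - e2 + e3 - e4) / 4
      exact (mul_eq_zero.1 this).resolve_left hv0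
    · have : u * C.eval x = 0 := by linear_combination (e1 + e2 - e3 - e4) / 4
      exact (mul_eq_zero.1 this).resolve_left hu0
    · have : u * v * D.eval x = 0 := by linear_combination (e1 - e2 - e3 + e4) / 4
      exact (mul_eq_zero.1 this).resolve_left (mul_ne_zero hu0 hv0)
  exact ⟨eq_zero_of_infinite_isRoot _ (hinf.mono fun x hx => (key x hx).1),
    eq_zero_of_infinite_isRoot _ (hinf.mono fun x hx => (key x hx).2.1),
    eq_zero_of_infinite_isRoot _ (hinf.mono fun x hx => (key x hx).2.2.1),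
    eq_zero_of_infinite_isRoot _ (hinf.mono fun x hx => (key x hx).2.2.2)⟩

/-- Division by powers of the coprime `t₀, t₁`. -/
lemma exists_quotient {π : ZMod 2} {n M : ℕ} {f g : CFn} (hf : f ∈ V π (n + M))
    (hg : g ∈ V π (n + M)) (h : ct 1 ^ M * f = ct 0 ^ M * g) :
    ∃ σ ∈ V π n, f = ct 0 ^ M * σ ∧ g = ct 1 ^ M * σ := by
  obtain ⟨P, hP⟩ := exists_nf hf
  obtain ⟨Q, hQ⟩ := exists_nf hg
  have heq : ∀ e e', P e e' = X ^ M * Q e e' := by
    have := split4 (A := P 0 0 - X ^ M * Q 0 0) (B := P 0 1 - X ^ M * Q 0 1)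
      (C := P 1 0 - X ^ M * Q 1 0) (D := P 1 1 - X ^ M * Q 1 1) fun p h1 => by
      have e := congrFun h p
      simp only [Pi.mul_apply, Pi.pow_apply, ct, h1, one_pow, one_mul,
        hP.eval_affine p h1, hQ.eval_affine p h1] at e
      simp only [eval_sub, eval_mul, eval_pow, eval_X]
      linear_combination e
    simp only [sub_eq_zero] at this
    intro e e'
    fin_cases e <;> fin_cases e' <;> simp [this]
  have hdeg : ∀ e e', (Q e e' = 0) ∨
      (M + 3 * (e.val + e'.val) ≤ n + M ∧ ((e.val + e'.val : ℕ) : ZMod 2) = π ∧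
        (Q e e').natDegree + M + 3 * (e.val + e'.val) ≤ n + M) := by
    intro e e'
    by_cases h0 : Q e e' = 0
    · exact Or.inl h0
    right
    have h1 := hP.2.1 e e'
    rw [heq, natDegree_mul (pow_ne_zero _ X_ne_zero) h0, natDegree_X_pow] at h1
    rcases hQ.1 e e' with ⟨h2, h3⟩ | h2
    · exact ⟨by omega, h3, by omega⟩
    · exact absurd h2 h0
  refine ⟨∑ e : Fin 2, ∑ e' : Fin 2,
    cu ^ e.val * cv ^ e'.val * homPart (Q e e') (n - 3 * (e.val + e'.val)), ?_, ?_, ?_⟩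
  · refine sum_mem fun e _ => sum_mem fun e' _ => ?_
    rcases hdeg e e' with h0 | ⟨h1, h2, -⟩
    · simp [h0, homPart]
    rw [homPart, Finset.mul_sum]
    refine sum_mem fun j hj => ?_
    rw [mul_smul_comm]
    refine Submodule.smul_mem _ _ ?_
    rw [Finset.mem_range] at hj
    have := vmon_mem (π := π) (n := n) j (n - 3 * (e.val + e'.val) - j) e.val e'.val (by omega) h2
    convert this using 1
    simp only [vmon]; ring
  · rw [hP.2.2, Finset.mul_sum]
    refine Finset.sum_congr rfl fun e _ => ?_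
    rw [Finset.mul_sum]
    refine Finset.sum_congr rfl fun e' _ => ?_
    rcases hdeg e e' with h0 | ⟨h1, -, -⟩
    · simp [heq, h0, homPart]
    rw [heq, homPart, homPart, show n + M - 3 * (e.val + e'.val) + 1
      = M + (n - 3 * (e.val + e'.val) + 1) by omega, Finset.sum_range_add]
    rw [Finset.sum_eq_zero (fun j hj => by
      rw [Finset.mem_range] at hj
      simp [coeff_X_pow_mul', not_le.2 hj]), zero_add]
    simp only [Finset.mul_sum]
    refine Finset.sum_congr rfl fun j hj => ?_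
    rw [Finset.mem_range] at hj
    rw [coeff_X_pow_mul', if_pos (Nat.le_add_right M j), Nat.add_sub_cancel_left,
      show n + M - 3 * (e.val + e'.val) - (M + j) = n - 3 * (e.val + e'.val) - j by omega, pow_add]
    simp only [mul_smul_comm]
    congr 1; ring
  · rw [hQ.2.2, Finset.mul_sum]
    refine Finset.sum_congr rfl fun e _ => ?_
    rw [Finset.mul_sum]
    refine Finset.sum_congr rfl fun e' _ => ?_
    rcases hdeg e e' with h0 | ⟨h1, -, h3⟩
    · simp [h0, homPart]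
    rw [homPart, homPart, show n + M - 3 * (e.val + e'.val) + 1
      = (n - 3 * (e.val + e'.val) + 1) + M by omega, Finset.sum_range_add]
    rw [Finset.sum_eq_zero (s := Finset.range M) (fun j hj => by
      rw [coeff_eq_zero_of_natDegree_lt (by omega), zero_smul]), add_zero]
    simp only [Finset.mul_sum]
    refine Finset.sum_congr rfl fun j hj => ?_
    rw [Finset.mem_range] at hj
    rw [show n + M - 3 * (e.val + e'.val) - j = (n - 3 * (e.val + e'.val) - j) + M by omega,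
      pow_add]
    simp only [mul_smul_comm]
    congr 1; ring

lemma exists_lift_mon {π : ZMod 2} {A B a c e e' : ℕ} (hn : a + c + 3 * (e + e') = A + B)
    (hA : A ≤ a + c) (hπ : ((e + e' : ℕ) : ZMod 2) = π) :
    ∃ f ∈ W π A B, f = wmon (min a A) (A - min a A) (a - min a A) (c - (A - min a A)) e e' ∧
      diag f = vmon a c e e' := by
  refine ⟨_, wmon_mem _ _ _ _ _ _ (by omega) (by omega) hπ, rfl, ?_⟩
  simp only [wmon, map_mul, map_pow, diag_fz, diag_ft, diag_fu, diag_fv]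
  simp only [vmon]
  calc _ = (ct 0 ^ min a A * ct 0 ^ (a - min a A)) *
        (ct 1 ^ (A - min a A) * ct 1 ^ (c - (A - min a A))) * cu ^ e * cv ^ e' := by ring
    _ = _ := by
        rw [← pow_add, ← pow_add, show min a A + (a - min a A) = a by omega,
          show A - min a A + (c - (A - min a A)) = c by omega]

/-- Restriction to the diagonal is onto. -/
lemma exists_lift {π : ZMod 2} {A B : ℕ} (hB : 6 ≤ B) {f : CFn} (hf : f ∈ V π (A + B)) :
    ∃ g ∈ W π A B, diag g = f := by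
  obtain ⟨P, h1, h2, rfl⟩ := exists_nf hf
  suffices H : ∀ x ∈ (Finset.univ : Finset (Fin 2)), ∀ y ∈ (Finset.univ : Finset (Fin 2)),
      cu ^ x.val * cv ^ y.val * homPart (P x y) (A + B - 3 * (x.val + y.val)) ∈
        (W π A B).map diag.toLinearMap by
    obtain ⟨g, hg, he⟩ := sum_mem (fun x hx => sum_mem (H x hx))
    exact ⟨g, hg, he⟩
  intro x _ y _
  rcases h1 x y with ⟨g1, g2⟩ | g1
  · rw [homPart, Finset.mul_sum]
    refine sum_mem fun j hj => ?_
    rw [mul_smul_comm]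
    refine Submodule.smul_mem _ _ ?_
    rw [Finset.mem_range] at hj
    obtain ⟨g, hg, -, he⟩ := exists_lift_mon (A := A) (B := B) (a := j)
      (c := A + B - 3 * (x.val + y.val) - j) (by omega) (by omega) g2
    refine ⟨g, hg, he.trans ?_⟩
    simp only [vmon]; ring
  · simp [g1, homPart]

/-- The canonical lift of a normal form. -/
noncomputable def can (A B : ℕ) (P : Fin 2 → Fin 2 → Polynomial ℂ) : Fn :=
  ∑ x : Fin 2, ∑ y : Fin 2, ∑ j ∈ Finset.range (A + B - 3 * (x.val + y.val) + 1),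
    (P x y).coeff j • wmon (min j A) (A - min j A) (j - min j A)
      (A + B - 3 * (x.val + y.val) - j - (A - min j A)) x.val y.val

lemma can_zero (A B : ℕ) : can A B 0 = 0 := by simp [can]

lemma can_add (A B : ℕ) (P Q : Fin 2 → Fin 2 → Polynomial ℂ) :
    can A B (P + Q) = can A B P + can A B Q := by
  simp only [can, Pi.add_apply, coeff_add, add_smul, Finset.sum_add_distrib]

lemma can_smul (A B : ℕ) (r : ℂ) (P : Fin 2 → Fin 2 → Polynomial ℂ) :
    can A B (r • P) = r • can A B P := by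
  simp only [can, Pi.smul_apply, coeff_smul, smul_eq_mul, Finset.smul_sum, mul_smul]

/-- Decomposition along the canonical representatives. -/
def HasCan (π : ZMod 2) (A B : ℕ) (f : Fn) : Prop :=
  ∃ P g, g ∈ W π A B ∧ IsNF π (A + 1 + (B + 1)) (diag f) P ∧
    f = fF * g + can (A + 1) (B + 1) P

lemma HasCan.add {π : ZMod 2} {A B : ℕ} {f f' : Fn} (h : HasCan π A B f) (h' : HasCan π A B f') :
    HasCan π A B (f + f') := by
  obtain ⟨P, g, h1, h2, h3⟩ := h
  obtain ⟨P', g', h1', h2', h3'⟩ := h'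
  exact ⟨P + P', g + g', add_mem h1 h1', by simpa using h2.add h2',
    by rw [can_add, mul_add, h3, h3']; ring⟩

lemma HasCan.smul {π : ZMod 2} {A B : ℕ} {f : Fn} (r : ℂ) (h : HasCan π A B f) :
    HasCan π A B (r • f) := by
  obtain ⟨P, g, h1, h2, h3⟩ := h
  exact ⟨r • P, r • g, Submodule.smul_mem _ _ h1, by simpa using h2.smul r,
    by rw [can_smul, mul_smul_comm, h3, smul_add]⟩

lemma hasCan_reduced {π : ZMod 2} {A B a a' c c' : ℕ} {e e' : Fin 2} (hA : a + a' = A + 1)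
    (hB : c + c' + 3 * (e.val + e'.val) = B + 1)
    (hπ : ((e.val + e'.val : ℕ) : ZMod 2) = π) (hac : ¬ (0 < a' ∧ 0 < c)) :
    HasCan π A B (wmon a a' c c' e.val e'.val) := by
  refine ⟨fun x y => if x = e ∧ y = e' then X ^ (a + c) else 0, 0, zero_mem _,
    ⟨fun x y => ?_, fun x y => ?_, ?_⟩, ?_⟩
  · by_cases h : x = e ∧ y = e'
    · obtain ⟨rfl, rfl⟩ := h; exact Or.inl ⟨by omega, hπ⟩
    · exact Or.inr (if_neg h)
  · dsimp only
    split_ifs with h
    · obtain ⟨rfl, rfl⟩ := h; rw [natDegree_X_pow]; omega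
    · simp
  · rw [Finset.sum_eq_single e (fun x _ hx => by simp [hx, homPart]) (by simp)]
    rw [Finset.sum_eq_single e' (fun x _ hx => by simp [hx, homPart]) (by simp)]
    simp only [and_self, if_true, homPart, coeff_X_pow, ite_smul, one_smul, zero_smul,
      Finset.sum_ite_eq', Finset.mem_range]
    rw [if_pos (by omega),
      show A + 1 + (B + 1) - 3 * (e.val + e'.val) - (a + c) = a' + c' by omega]
    simp only [wmon, map_mul, map_pow, diag_fz, diag_ft, diag_fu, diag_fv, pow_add]; ring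
  · rw [mul_zero, zero_add, can]
    rw [Finset.sum_eq_single e (fun x _ hx => by simp [hx]) (by simp)]
    rw [Finset.sum_eq_single e' (fun x _ hx => by simp [hx]) (by simp)]
    simp only [and_self, if_true, coeff_X_pow, ite_smul, one_smul, zero_smul,
      Finset.sum_ite_eq', Finset.mem_range]
    rw [if_pos (by omega), show min (a + c) (A + 1) = a by omega,
      show A + 1 - a = a' by omega, show a + c - a = c by omega,
      show A + 1 + (B + 1) - 3 * (e.val + e'.val) - (a + c) - a' = c' by omega]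

lemma hasCan_move {π : ZMod 2} {A B a x y c' e e' : ℕ} (hA : a + x = A)
    (hB : y + c' + 3 * (e + e') = B) (hπ : ((e + e' : ℕ) : ZMod 2) = π)
    (h : HasCan π A B (wmon (a + 1) x y (c' + 1) e e')) :
    HasCan π A B (wmon a (x + 1) (y + 1) c' e e') := by
  obtain ⟨P, g, h1, h3, h4⟩ := h
  have he : wmon a (x + 1) (y + 1) c' e e' =
      wmon (a + 1) x y (c' + 1) e e' + fF * ((-1 : ℂ) • wmon a x y c' e e') := by
    have : fF = fz 0 * ft 1 - fz 1 * ft 0 := rfl
    simp only [wmon, pow_add, pow_one, this, neg_one_smul]; ring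
  refine ⟨P, g + (-1 : ℂ) • wmon a x y c' e e',
    add_mem h1 (Submodule.smul_mem _ _ (wmon_mem _ _ _ _ _ _ hA hB hπ)), ?_, ?_⟩
  · rw [he, map_add, map_mul, diag_fF, zero_mul, add_zero]; exact h3
  · rw [he, h4, mul_add]; abel

lemma wmon_reduce_u (a a' c c' d e' : ℕ) : wmon a a' c c' (d + 2) e' =
    wmon a a' c (c' + 6) d e' + (-1 : ℂ) • wmon a a' (c + 6) c' d e' := by
  simp only [wmon, pow_add, fu_sq, neg_one_smul]; ring

lemma wmon_reduce_v (a a' c c' e d : ℕ) : wmon a a' c c' e (d + 2) =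
    wmon a a' c (c' + 6) e d + wmon a a' (c + 6) c' e d := by
  simp only [wmon, pow_add, fv_sq]; ring

lemma parity_sub_two {π : ZMod 2} {n : ℕ} (h : ((n + 2 : ℕ) : ZMod 2) = π) :
    ((n : ℕ) : ZMod 2) = π := by
  rw [← h]; push_cast
  have : (2 : ZMod 2) = 0 := by decide
  linear_combination -this

lemma hasCan_mon (π : ZMod 2) (A B : ℕ) : ∀ s a' : ℕ, ∀ a c c' e e' : ℕ, e + e' = s →
    a + a' = A + 1 → c + c' + 3 * (e + e') = B + 1 → ((e + e' : ℕ) : ZMod 2) = π →
    HasCan π A B (wmon a a' c c' e e') := by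
  intro s
  induction s using Nat.strong_induction_on with
  | _ s ih =>
  intro a'
  induction a' using Nat.strong_induction_on with
  | _ a' ih' =>
  intro a c c' e e' hs hA hB hπ
  by_cases he : 2 ≤ e
  · obtain ⟨d, rfl⟩ : ∃ d, e = d + 2 := ⟨e - 2, by omega⟩
    have h2 := parity_sub_two (π := π) (n := d + e') (by rw [← hπ]; congr 1; omega)
    rw [wmon_reduce_u]
    exact (ih (d + e') (by omega) a' a c (c' + 6) d e' rfl hA (by omega) h2).add
      ((ih (d + e') (by omega) a' a (c + 6) c' d e' rfl hA (by omega) h2).smul _)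
  by_cases he' : 2 ≤ e'
  · obtain ⟨d, rfl⟩ : ∃ d, e' = d + 2 := ⟨e' - 2, by omega⟩
    have h2 := parity_sub_two (π := π) (n := e + d) (by rw [← hπ]; congr 1)
    rw [wmon_reduce_v]
    exact (ih (e + d) (by omega) a' a c (c' + 6) e d rfl hA (by omega) h2).add
      (ih (e + d) (by omega) a' a (c + 6) c' e d rfl hA (by omega) h2)
  by_cases hac : 0 < a' ∧ 0 < c
  · obtain ⟨x, rfl⟩ : ∃ x, a' = x + 1 := ⟨a' - 1, by omega⟩
    obtain ⟨y, rfl⟩ : ∃ y, c = y + 1 := ⟨c - 1, by omega⟩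
    exact hasCan_move (by omega) (by omega) hπ
      (ih' x (by omega) (a + 1) y (c' + 1) e e' hs (by omega) (by omega) hπ)
  exact hasCan_reduced (e := ⟨e, by omega⟩) (e' := ⟨e', by omega⟩) hA hB hπ hac

/-- The kernel of the restriction to the diagonal is generated by `fF`. -/
lemma exists_div_fF {π : ZMod 2} {A B : ℕ} {f : Fn} (hf : f ∈ W π (A + 1) (B + 1))
    (h : diag f = 0) : ∃ g ∈ W π A B, f = fF * g := by
  have key : HasCan π A B f := by
    clear h
    induction hf using Submodule.span_induction with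
    | mem x hx =>
      obtain ⟨a, a', c, c', e, e', hA, hB, hπ, rfl⟩ := hx
      exact hasCan_mon π A B _ a' a c c' e e' rfl hA hB hπ
    | zero => exact ⟨0, 0, zero_mem _, by simpa using IsNF.zero π _, by simp [can_zero]⟩
    | add x y _ _ hx hy => exact hx.add hy
    | smul r x _ hx => exact hx.smul r
  obtain ⟨P, g, hg, hP, he⟩ := key
  refine ⟨g, hg, ?_⟩
  have := split4 (A := P 0 0) (B := P 0 1) (C := P 1 0) (D := P 1 1) fun p h1 => by
    rw [← hP.eval_affine p h1, h]; rfl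
  have hP0 : P = 0 := by funext x y; fin_cases x <;> fin_cases y <;> simp [this]
  rw [he, hP0, can_zero, add_zero]

end Vale.Agent.P296.Alg
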