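import Mathlib

/-!
Algebraic core, interface: global sections of `Sym^k E ⊗ O(α, β)` on the cone
`{(z, t, u, v) : z ≠ 0, t ≠ 0, u² = t₁⁶ - t₀⁶, v² = t₁⁶ + t₀⁶}`.
In the frame `b` a functional on the fibre is `φ = (φ₁, φ₂, φ_h)`, with
`x₀ = ρ_b (u x₁ + v x₂) + (z₀ t₁ - z₁ t₀) h`, `ρ_b = (z_b / t_b)⁵`.
-/

namespace Vale.Agent.P296.Alg

/-- A point of the cone. -/
structure OnCone (z t : Fin 2 → ℂ) (u v : ℂ) : Prop where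
  hz : z ≠ 0
  ht : t ≠ 0
  hu : u ^ 2 = t 1 ^ 6 - t 0 ^ 6
  hv : v ^ 2 = t 1 ^ 6 + t 0 ^ 6

/-- `(ρ₀ - ρ₁) / (z₀ t₁ - z₁ t₀)`. -/
noncomputable def dD (z t : Fin 2 → ℂ) : ℂ :=
  (∑ i ∈ Finset.range 5, (z 0 * t 1) ^ i * (z 1 * t 0) ^ (4 - i)) / (t 0 * t 1) ^ 5

/-- The type of a section written in the two frames. -/
abbrev SecFun : Type := Fin 2 → (Fin 2 → ℂ) → (Fin 2 → ℂ) → ℂ → ℂ → (Fin 3 → ℂ) → ℂ

/-- The variables `z₀ z₁ t₀ t₁ u v φ₁ φ₂ φ_h` as one vector. -/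
def vars (z t : Fin 2 → ℂ) (u v : ℂ) (φ : Fin 3 → ℂ) : Fin 9 → ℂ :=
  ![z 0, z 1, t 0, t 1, u, v, φ 0, φ 1, φ 2]

/-- A global section of `Sym^k E ⊗ O(α, β)`. -/
structure IsSection (k α β : ℕ) (Φ : SecFun) : Prop where
  rational : ∀ b, ∃ (p : MvPolynomial (Fin 9) ℂ) (N : ℕ), ∀ z t u v, OnCone z t u v → t b ≠ 0 →
    ∀ φ, Φ b z t u v φ = MvPolynomial.eval (vars z t u v φ) p / t b ^ N
  homog : ∀ b z t u v, OnCone z t u v → t b ≠ 0 → ∀ (c : ℂ) φ,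
    Φ b z t u v (c • φ) = c ^ k * Φ b z t u v φ
  weight_z : ∀ b z t u v, OnCone z t u v → t b ≠ 0 → ∀ (c : ℂ), c ≠ 0 → ∀ φ,
    Φ b (c • z) t u v ![φ 0, φ 1, φ 2 / c ^ 4] = c ^ α * Φ b z t u v φ
  weight_t : ∀ b z t u v, OnCone z t u v → t b ≠ 0 → ∀ (c : ℂ), c ≠ 0 → ∀ φ,
    Φ b z (c • t) (c ^ 3 * u) (c ^ 3 * v) ![φ 0 / c ^ 2, φ 1 / c ^ 2, c * φ 2] =
      c ^ β * Φ b z t u v φ
  sign : ∀ b z t u v, OnCone z t u v → t b ≠ 0 → ∀ φ,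
    Φ b z t (-u) (-v) ![-φ 0, -φ 1, φ 2] = Φ b z t u v φ
  compat : ∀ z t u v, OnCone z t u v → t 0 ≠ 0 → t 1 ≠ 0 → ∀ φ,
    Φ 1 z t u v ![φ 0 - φ 2 * dD z t * u, φ 1 - φ 2 * dD z t * v, φ 2] = Φ 0 z t u v φ

/-- The twists; independent of `k`. -/
def alpha : ℕ := 4

/-- The twists; independent of `k`. -/
def beta : ℕ := 16

/-- The theorem to prove (in `Algebra/Main.lean`): no common zero. If other values of `alpha` and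
`beta` are more convenient, change them here (they must not depend on `k`). -/
def Core : Prop := ∀ k : ℕ, 1 ≤ k → ∃ (L : ℕ) (fam : Fin L → SecFun),
  (∀ l, IsSection k alpha beta (fam l)) ∧
  ∀ b z t u v, OnCone z t u v → t b ≠ 0 → ∀ φ : Fin 3 → ℂ, φ ≠ 0 → ∃ l, fam l b z t u v φ ≠ 0

end Vale.Agent.P296.Alg
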