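import Vale.Agent.P296.Algebra.Base

/-!
Shifting coefficient arrays by `(u, v)` and the jet correction.
-/

namespace Vale.Agent.P296.Alg

open Finset

variable {R : Type*} [CommRing R]

/-- Coefficient of `X^q` in `(X - a)^n`. -/
def K1 (a : R) (q n : ℕ) : R := (n.choose q : R) * (-a) ^ (n - q)

/-- Coefficient of `X^q` in `(X - (a,b))^al`, two variables. -/
def KK (a b : R) (q al : ℕ × ℕ) : R := K1 a q.1 al.1 * K1 b q.2 al.2

/-- The level of a multi-index. -/
def lev (q : ℕ × ℕ) : ℕ := q.1 + q.2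

lemma K1_eq_zero (a : R) {q n : ℕ} (h : n < q) : K1 a q n = 0 := by
  simp [K1, Nat.choose_eq_zero_of_lt h]

lemma KK_eq_zero (a b : R) {q al : ℕ × ℕ} (h : al.1 < q.1 ∨ al.2 < q.2) : KK a b q al = 0 := by
  rcases h with h | h <;> simp [KK, K1_eq_zero _ h]

lemma K1_self (a : R) (n : ℕ) : K1 a n n = 1 := by simp [K1]

lemma KK_self (a b : R) (q : ℕ × ℕ) : KK a b q q = 1 := by simp [KK, K1_self]

lemma K1_smul (c a : R) (q n : ℕ) : K1 (c * a) q n = c ^ (n - q) * K1 a q n := by
  simp only [K1]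
  rw [show -(c * a) = c * -a by ring, mul_pow]; ring

lemma K1_succ (a : R) (q n : ℕ) :
    K1 a q (n + 1) + a * K1 a q n = if q = 0 then 0 else K1 a (q - 1) n := by
  cases q with
  | zero => simp [K1, pow_succ]; ring
  | succ q =>
    simp only [Nat.succ_ne_zero, if_false, Nat.add_sub_cancel, K1, Nat.choose_succ_succ,
      Nat.cast_add, Nat.add_sub_add_right]
    rcases le_or_gt (q + 1) n with h | h
    · rw [show n - q = (n - (q + 1)) + 1 by omega, pow_succ]; ring
    · simp [Nat.choose_eq_zero_of_lt h]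

lemma sum_K1_mul_pow (a x : R) (n : ℕ) :
    ∑ q ∈ range (n + 1), K1 a q n * x ^ q = (x - a) ^ n := by
  rw [sub_eq_add_neg, add_pow]
  exact sum_congr rfl fun q _ => by simp [K1]; ring

lemma K1_comp (a b : R) (q n : ℕ) :
    ∑ j ∈ range (n + 1), K1 a q j * K1 b j n = K1 (a + b) q n := by
  have h := congrArg (fun p => Polynomial.coeff p q)
    (sum_K1_mul_pow (Polynomial.C b) (Polynomial.X + Polynomial.C (-a)) n)
  rw [show Polynomial.X + Polynomial.C (-a) - Polynomial.C b
    = Polynomial.X + Polynomial.C (-(a + b)) by simp [map_add]; ring] at h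
  simp only [Polynomial.finsetSum_coeff, Polynomial.coeff_X_add_C_pow] at h
  rw [K1, mul_comm, ← h]
  refine sum_congr rfl fun j _ => ?_
  rw [show K1 (Polynomial.C b) j n = Polynomial.C (K1 b j n) by simp [K1],
    Polynomial.coeff_C_mul, Polynomial.coeff_X_add_C_pow, K1, K1]
  ring

/-- The box below `al`. -/
def box (al : ℕ × ℕ) : Finset (ℕ × ℕ) := range (al.1 + 1) ×ˢ range (al.2 + 1)

lemma KK_comp (a a' b b' : R) (q al : ℕ × ℕ) :
    ∑ j ∈ box al, KK a a' q j * KK b b' j al = KK (a + b) (a' + b') q al := by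
  rw [box, sum_product, KK, ← K1_comp, ← K1_comp, Finset.sum_mul]
  refine sum_congr rfl fun i _ => ?_
  rw [Finset.mul_sum]
  exact sum_congr rfl fun j _ => by simp only [KK]; ring

lemma KK_smul (c a b : R) (q al : ℕ × ℕ) :
    KK (c * a) (c * b) q al = c ^ (lev al - lev q) * KK a b q al := by
  by_cases h : al.1 < q.1 ∨ al.2 < q.2
  · simp [KK_eq_zero _ _ h]
  simp only [KK, K1_smul]
  rw [show lev al - lev q = (al.1 - q.1) + (al.2 - q.2) by simp only [lev]; omega, pow_add]
  ring

lemma sum_KK_mul_pow (a b x y : R) (al : ℕ × ℕ) :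
    ∑ q ∈ box al, KK a b q al * (x ^ q.1 * y ^ q.2) = (x - a) ^ al.1 * (y - b) ^ al.2 := by
  rw [box, sum_product, ← sum_K1_mul_pow, ← sum_K1_mul_pow, Finset.sum_mul]
  refine sum_congr rfl fun i _ => ?_
  rw [Finset.mul_sum]
  exact sum_congr rfl fun j _ => by simp only [KK]; ring

/-- Arrays of coefficients on the curve. -/
abbrev Arr : Type := (ℕ × ℕ) →₀ CFn

/-- The coefficient of `X^q` after the shift. -/
noncomputable def S (q : ℕ × ℕ) (E : Arr) : CFn := E.sum fun al f => KK cu cv q al * f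

lemma S_add (q : ℕ × ℕ) (E E' : Arr) : S q (E + E') = S q E + S q E' :=
  Finsupp.sum_add_index' (fun _ => mul_zero _) (fun _ _ _ => mul_add _ _ _)

lemma S_zero (q : ℕ × ℕ) : S q 0 = 0 := Finsupp.sum_zero_index

lemma S_smul (q : ℕ × ℕ) (c : CFn) (E : Arr) : S q (c • E) = c * S q E := by
  rw [S, S, Finsupp.sum_smul_index' (fun _ => mul_zero _), Finsupp.mul_sum]
  exact Finsupp.sum_congr fun al _ => by rw [smul_eq_mul]; ring

lemma S_neg (q : ℕ × ℕ) (E : Arr) : S q (-E) = -S q E := by
  rw [← neg_one_smul CFn E, S_smul, neg_one_mul]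

lemma S_sum {ι : Type*} (q : ℕ × ℕ) (s : Finset ι) (f : ι → Arr) :
    S q (∑ i ∈ s, f i) = ∑ i ∈ s, S q (f i) := by
  classical
  induction s using Finset.induction_on with
  | empty => simp [S_zero]
  | insert a s ha ih => rw [sum_insert ha, sum_insert ha, S_add, ih]

lemma S_single (q al : ℕ × ℕ) (f : CFn) :
    S q (Finsupp.single al f) = KK cu cv q al * f :=
  Finsupp.sum_single_index (mul_zero _)

/-- Multiplication by the variable number `j`. -/
noncomputable def mulY (e : ℕ × ℕ) (E : Arr) : Arr := E.mapDomain (· + e)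

/-- Multiplication by the variable plus the shift. -/
noncomputable def L1 (E : Arr) : Arr := mulY (1, 0) E + cu • E

/-- Multiplication by the variable plus the shift. -/
noncomputable def L2 (E : Arr) : Arr := mulY (0, 1) E + cv • E

lemma S_mulY (q e : ℕ × ℕ) (E : Arr) :
    S q (mulY e E) = E.sum fun al f => KK cu cv q (al + e) * f :=
  Finsupp.sum_mapDomain_index (fun _ => mul_zero _) (fun _ _ _ => mul_add _ _ _)

lemma S_L1 (q : ℕ × ℕ) (E : Arr) :
    S q (L1 E) = if q.1 = 0 then 0 else S (q.1 - 1, q.2) E := by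
  rw [L1, S_add, S_smul, S_mulY, S, Finsupp.mul_sum, ← Finsupp.sum_add]
  have h : ∀ al : ℕ × ℕ, ∀ f : CFn, KK cu cv q (al + (1, 0)) * f + cu * (KK cu cv q al * f)
      = if q.1 = 0 then 0 else KK cu cv (q.1 - 1, q.2) al * f := by
    intro al f
    have h1 := K1_succ cu q.1 al.1
    simp only [KK, Prod.fst_add, Prod.snd_add, add_zero]
    split_ifs with h0
    · rw [if_pos h0] at h1
      linear_combination (K1 cv q.2 al.2 * f) * h1
    · rw [if_neg h0] at h1
      linear_combination (K1 cv q.2 al.2 * f) * h1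
  simp only [h]
  split_ifs <;> simp [S, Finsupp.sum]

lemma S_L2 (q : ℕ × ℕ) (E : Arr) :
    S q (L2 E) = if q.2 = 0 then 0 else S (q.1, q.2 - 1) E := by
  rw [L2, S_add, S_smul, S_mulY, S, Finsupp.mul_sum, ← Finsupp.sum_add]
  have h : ∀ al : ℕ × ℕ, ∀ f : CFn, KK cu cv q (al + (0, 1)) * f + cv * (KK cu cv q al * f)
      = if q.2 = 0 then 0 else KK cu cv (q.1, q.2 - 1) al * f := by
    intro al f
    have h1 := K1_succ cv q.2 al.2
    simp only [KK, Prod.fst_add, Prod.snd_add, add_zero]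
    split_ifs with h0
    · rw [if_pos h0] at h1
      linear_combination (K1 cu q.1 al.1 * f) * h1
    · rw [if_neg h0] at h1
      linear_combination (K1 cu q.1 al.1 * f) * h1
  simp only [h]
  split_ifs <;> simp [S, Finsupp.sum]

/-- Admissible coefficient at `al`. -/
def Good (π : ZMod 2) (D lo hi : ℕ) (al : ℕ × ℕ) (f : CFn) : Prop :=
  f = 0 ∨ (lo ≤ lev al ∧ lev al ≤ hi ∧
    ∃ n, n + 3 * lev al = D ∧ f ∈ V (π + (lev al : ℕ)) n)

/-- Graded arrays supported in a window of levels. -/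
def GP (π : ZMod 2) (D lo hi : ℕ) (E : Arr) : Prop := ∀ al, Good π D lo hi al (E al)

lemma Good.add {π : ZMod 2} {D lo hi : ℕ} {al : ℕ × ℕ} {f g : CFn} (hf : Good π D lo hi al f)
    (hg : Good π D lo hi al g) : Good π D lo hi al (f + g) := by
  rcases hf with rfl | ⟨h1, h2, n, hn, hf⟩
  · rwa [zero_add]
  rcases hg with rfl | ⟨-, -, n', hn', hg⟩
  · rw [add_zero]; exact Or.inr ⟨h1, h2, n, hn, hf⟩
  exact Or.inr ⟨h1, h2, n, hn, add_mem hf (V_congr hg rfl (by omega))⟩

lemma GP.zero (π : ZMod 2) (D lo hi : ℕ) : GP π D lo hi 0 := fun _ => Or.inl rfl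

lemma GP.add {π : ZMod 2} {D lo hi : ℕ} {E E' : Arr} (h : GP π D lo hi E)
    (h' : GP π D lo hi E') : GP π D lo hi (E + E') := fun al => (h al).add (h' al)

lemma GP.sum {π : ZMod 2} {D lo hi : ℕ} {ι : Type*} {s : Finset ι} {f : ι → Arr}
    (h : ∀ i ∈ s, GP π D lo hi (f i)) : GP π D lo hi (∑ i ∈ s, f i) :=
  Finset.sum_induction f (GP π D lo hi) (fun _ _ => GP.add) (GP.zero π D lo hi) h

lemma GP.neg {π : ZMod 2} {D lo hi : ℕ} {E : Arr} (h : GP π D lo hi E) :
    GP π D lo hi (-E) := by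
  intro al
  rcases h al with h | ⟨h1, h2, n, hn, h⟩
  · exact Or.inl (by simp [h])
  · exact Or.inr ⟨h1, h2, n, hn, by simpa using neg_mem h⟩

lemma GP.mono {π : ZMod 2} {D lo hi lo' hi' : ℕ} {E : Arr} (h : GP π D lo hi E) (hlo : lo' ≤ lo)
    (hhi : hi ≤ hi') : GP π D lo' hi' E := by
  intro al
  rcases h al with h | ⟨h1, h2, h3⟩
  · exact Or.inl h
  · exact Or.inr ⟨hlo.trans h1, h2.trans hhi, h3⟩

lemma GP.mulY {π : ZMod 2} {D lo hi : ℕ} {E : Arr} (h : GP π D lo hi E) {e : ℕ × ℕ}
    (he : lev e = 1) : GP (π + 1) (D + 3) (lo + 1) (hi + 1) (Alg.mulY e E) := by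
  intro al
  by_cases hal : ∃ b, b + e = al
  · obtain ⟨b, rfl⟩ := hal
    rw [Alg.mulY, Finsupp.mapDomain_apply (add_left_injective e)]
    rcases h b with h | ⟨h1, h2, n, hn, h⟩
    · exact Or.inl h
    have hl : lev (b + e) = lev b + 1 := by simp only [lev, Prod.fst_add, Prod.snd_add] at *; omega
    refine Or.inr ⟨by omega, by omega, n, by omega, V_congr h ?_ rfl⟩
    rw [hl]; push_cast
    have : (2 : ZMod 2) = 0 := by decide
    linear_combination -this
  · exact Or.inl (Finsupp.mapDomain_notin_range _ _ (fun ⟨b, hb⟩ => hal ⟨b, hb⟩))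

lemma GP.csmul {π : ZMod 2} {D lo hi : ℕ} {E : Arr} {c : CFn} (hc : c ∈ V 1 3)
    (h : GP π D lo hi E) : GP (π + 1) (D + 3) lo hi (c • E) := by
  intro al
  rcases h al with h | ⟨h1, h2, n, hn, h⟩
  · exact Or.inl (by simp [h])
  · refine Or.inr ⟨h1, h2, 3 + n, by omega, ?_⟩
    simp only [Finsupp.smul_apply, smul_eq_mul]
    exact V_congr (V_mul hc h) (by ring) rfl

lemma GP.L1 {π : ZMod 2} {D lo hi : ℕ} {E : Arr} (h : GP π D lo hi E) :
    GP (π + 1) (D + 3) lo (hi + 1) (Alg.L1 E) :=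
  ((h.mulY (e := (1, 0)) rfl).mono (Nat.le_succ _) le_rfl).add
    ((h.csmul cu_mem).mono le_rfl (Nat.le_succ _))

lemma GP.L2 {π : ZMod 2} {D lo hi : ℕ} {E : Arr} (h : GP π D lo hi E) :
    GP (π + 1) (D + 3) lo (hi + 1) (Alg.L2 E) :=
  ((h.mulY (e := (0, 1)) rfl).mono (Nat.le_succ _) le_rfl).add
    ((h.csmul cv_mem).mono le_rfl (Nat.le_succ _))

/-- The ideal generated by `u, v` contains everything of high degree. -/
lemma exists_decomp {π : ZMod 2} {d : ℕ} {σ : CFn} (hd : 11 ≤ d) (hσ : σ ∈ V π d) :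
    ∃ a ∈ V (π + 1) (d - 3), ∃ b ∈ V (π + 1) (d - 3), σ = cu * a + cv * b := by
  have h2 : (2 : ZMod 2) = 0 := by decide
  induction hσ using Submodule.span_induction with
  | mem x hx =>
    obtain ⟨a, c, e, e', hn, hπ, rfl⟩ := hx
    rcases Nat.eq_zero_or_pos e with rfl | he
    · rcases Nat.eq_zero_or_pos e' with rfl | he'
      · have hu : cu ∈ V (π + 1) 3 := V_congr cu_mem (by rw [← hπ]; simp) rfl
        have hv : cv ∈ V (π + 1) 3 := V_congr cv_mem (by rw [← hπ]; simp) rfl
        rcases le_or_gt 6 a with ha | ha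
        · obtain ⟨x, rfl⟩ : ∃ x, a = x + 6 := ⟨a - 6, by omega⟩
          have hm : vmon x c 0 0 ∈ V 0 (d - 6) := vmon_mem _ _ _ _ (by omega) (by simp)
          refine ⟨(-(1 / 2) : ℂ) • (vmon x c 0 0 * cu),
            Submodule.smul_mem _ _ (V_congr (V_mul hm hu) (zero_add _) (by omega)),
            (1 / 2 : ℂ) • (vmon x c 0 0 * cv),
            Submodule.smul_mem _ _ (V_congr (V_mul hm hv) (zero_add _) (by omega)), ?_⟩
          funext p
          simp only [vmon, Pi.add_apply, Pi.mul_apply, Pi.smul_apply, Pi.pow_apply, smul_eq_mul,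
            cu, cv, ct, pow_add, pow_zero, mul_one, Pi.one_apply]
          linear_combination ((p.t 0 ^ x * p.t 1 ^ c) / 2) * (p.h.hu - p.h.hv)
        · obtain ⟨x, rfl⟩ : ∃ x, c = x + 6 := ⟨c - 6, by omega⟩
          have hm : vmon a x 0 0 ∈ V 0 (d - 6) := vmon_mem _ _ _ _ (by omega) (by simp)
          refine ⟨(1 / 2 : ℂ) • (vmon a x 0 0 * cu),
            Submodule.smul_mem _ _ (V_congr (V_mul hm hu) (zero_add _) (by omega)),
            (1 / 2 : ℂ) • (vmon a x 0 0 * cv),
            Submodule.smul_mem _ _ (V_congr (V_mul hm hv) (zero_add _) (by omega)), ?_⟩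
          funext p
          simp only [vmon, Pi.add_apply, Pi.mul_apply, Pi.smul_apply, Pi.pow_apply, smul_eq_mul,
            cu, cv, ct, pow_add, pow_zero, mul_one, Pi.one_apply]
          linear_combination (-(p.t 0 ^ a * p.t 1 ^ x) / 2) * (p.h.hu + p.h.hv)
      · obtain ⟨y, rfl⟩ : ∃ y, e' = y + 1 := ⟨e' - 1, by omega⟩
        refine ⟨0, zero_mem _, vmon a c 0 y, vmon_mem _ _ _ _ (by omega) ?_, ?_⟩
        · rw [← hπ]; push_cast; linear_combination -h2
        · simp only [vmon, pow_succ, mul_zero, zero_add]; ring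
    · obtain ⟨y, rfl⟩ : ∃ y, e = y + 1 := ⟨e - 1, by omega⟩
      refine ⟨vmon a c y e', vmon_mem _ _ _ _ (by omega) ?_, 0, zero_mem _, ?_⟩
      · rw [← hπ]; push_cast; linear_combination -h2
      · simp only [vmon, pow_succ, mul_zero, add_zero]; ring
  | zero => exact ⟨0, zero_mem _, 0, zero_mem _, by simp⟩
  | add x y _ _ hx hy =>
    obtain ⟨a, ha, b, hb, rfl⟩ := hx
    obtain ⟨a', ha', b', hb', rfl⟩ := hy
    exact ⟨a + a', add_mem ha ha', b + b', add_mem hb hb', by ring⟩
  | smul r x _ hx =>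
    obtain ⟨a, ha, b, hb, rfl⟩ := hx
    exact ⟨r • a, Submodule.smul_mem _ _ ha, r • b, Submodule.smul_mem _ _ hb,
      by rw [smul_add, mul_smul_comm, mul_smul_comm]⟩

/-- A residual `σ` is realised in the window of levels ending at `N`. -/
lemma exists_window : ∀ (N lim : ℕ) (π : ZMod 2) (d : ℕ), (N = 0 ∨ 3 * N + 8 ≤ d) →
    ∀ σ ∈ V π d, ∃ E, GP π d (N + 1 - lim) N E ∧
      ∀ q, lev q < lim → S q E = if lev q = 0 then σ else 0 := by
  intro N
  induction N with
  | zero =>
    intro lim π d _ σ hσ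
    cases lim with
    | zero => exact ⟨0, GP.zero _ _ _ _, fun q hq => absurd hq (Nat.not_lt_zero _)⟩
    | succ lim =>
      refine ⟨Finsupp.single (0, 0) σ, fun al => ?_, fun q _ => ?_⟩
      · classical
        rw [Finsupp.single_apply]
        split_ifs with h
        · subst h
          exact Or.inr ⟨by simp, le_rfl, d, by simp [lev],
            V_congr hσ (by simp [lev]) rfl⟩
        · exact Or.inl rfl
      · rw [S_single]
        split_ifs with h
        · have : q = (0, 0) := by simp only [lev] at h; exact Prod.ext (by omega) (by omega)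
          subst this; rw [KK_self, one_mul]
        · rw [KK_eq_zero _ _ (by simp only [lev] at h; omega), zero_mul]
  | succ N ih =>
    intro lim π d hd σ hσ
    cases lim with
    | zero => exact ⟨0, GP.zero _ _ _ _, fun q hq => absurd hq (Nat.not_lt_zero _)⟩
    | succ lim =>
      obtain ⟨a, ha, b, hb, rfl⟩ := exists_decomp (by omega) hσ
      have hN : N = 0 ∨ 3 * N + 8 ≤ d - 3 := Or.inr (by omega)
      obtain ⟨Ea, ga, sa⟩ := ih (lim + 1) _ _ hN a ha
      obtain ⟨Ea', ga', sa'⟩ := ih lim _ _ hN a ha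
      obtain ⟨Eb, gb, sb⟩ := ih (lim + 1) _ _ hN b hb
      obtain ⟨Eb', gb', sb'⟩ := ih lim _ _ hN b hb
      refine ⟨-(mulY (1, 0) Ea + -L1 Ea' + (mulY (0, 1) Eb + -L2 Eb')), ?_, fun q hq => ?_⟩
      · have hπ : π + 1 + 1 = π := by
          rw [add_assoc]; simp [show (1 : ZMod 2) + 1 = 0 by decide]
        have hd3 : d - 3 + 3 = d := by omega
        have k1 := ga.mulY (e := (1, 0)) rfl
        have k2 := ga'.L1
        have k3 := gb.mulY (e := (0, 1)) rfl
        have k4 := gb'.L2
        rw [hπ, hd3] at k1 k2 k3 k4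
        exact (((k1.mono (by omega) le_rfl).add (k2.neg.mono (by omega) le_rfl)).add
          ((k3.mono (by omega) le_rfl).add (k4.neg.mono (by omega) le_rfl))).neg
      · have ea := S_L1 q Ea
        have eb := S_L2 q Eb
        rw [L1, S_add, S_smul] at ea
        rw [L2, S_add, S_smul] at eb
        have e1 : S q (mulY (1, 0) Ea) - S q (L1 Ea') = - (cu * S q Ea) := by
          rw [S_L1]
          have : (if q.1 = 0 then (0 : CFn) else S (q.1 - 1, q.2) Ea)
              = if q.1 = 0 then 0 else S (q.1 - 1, q.2) Ea' := by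
            split_ifs with h
            · rfl
            · rw [sa _ (by simp only [lev] at hq ⊢; omega), sa' _ (by simp only [lev] at hq ⊢; omega)]
          rw [← this, ← ea]; ring
        have e2 : S q (mulY (0, 1) Eb) - S q (L2 Eb') = - (cv * S q Eb) := by
          rw [S_L2]
          have : (if q.2 = 0 then (0 : CFn) else S (q.1, q.2 - 1) Eb)
              = if q.2 = 0 then 0 else S (q.1, q.2 - 1) Eb' := by
            split_ifs with h
            · rfl
            · rw [sb _ (by simp only [lev] at hq ⊢; omega), sb' _ (by simp only [lev] at hq ⊢; omega)]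
          rw [← this, ← eb]; ring
        rw [S_neg, S_add, S_add, S_add, S_neg, S_neg, ← sub_eq_add_neg, ← sub_eq_add_neg, e1, e2,
          sa q hq, sb q hq]
        split_ifs <;> ring

lemma GP.L1_iterate {π : ZMod 2} {D lo hi : ℕ} {E : Arr} (h : GP π D lo hi E) (j : ℕ) :
    GP (π + j) (D + 3 * j) lo (hi + j) (Alg.L1^[j] E) := by
  induction j with
  | zero => simpa using h
  | succ j ih =>
    rw [Function.iterate_succ_apply']
    have := ih.L1
    rw [show π + ((j + 1 : ℕ) : ZMod 2) = π + j + 1 by push_cast; ring,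
      show D + 3 * (j + 1) = D + 3 * j + 3 by ring]
    exact this

lemma GP.L2_iterate {π : ZMod 2} {D lo hi : ℕ} {E : Arr} (h : GP π D lo hi E) (j : ℕ) :
    GP (π + j) (D + 3 * j) lo (hi + j) (Alg.L2^[j] E) := by
  induction j with
  | zero => simpa using h
  | succ j ih =>
    rw [Function.iterate_succ_apply']
    have := ih.L2
    rw [show π + ((j + 1 : ℕ) : ZMod 2) = π + j + 1 by push_cast; ring,
      show D + 3 * (j + 1) = D + 3 * j + 3 by ring]
    exact this

lemma S_L1_iterate (j : ℕ) (E : Arr) : ∀ q : ℕ × ℕ,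
    S q (Alg.L1^[j] E) = if j ≤ q.1 then S (q.1 - j, q.2) E else 0 := by
  induction j with
  | zero => simp
  | succ j ih =>
    intro q
    rw [Function.iterate_succ_apply', S_L1]
    simp only [ih]
    split_ifs <;> first | rfl | (exfalso; omega) | (congr 2; omega)

lemma S_L2_iterate (j : ℕ) (E : Arr) : ∀ q : ℕ × ℕ,
    S q (Alg.L2^[j] E) = if j ≤ q.2 then S (q.1, q.2 - j) E else 0 := by
  induction j with
  | zero => simp
  | succ j ih =>
    intro q
    rw [Function.iterate_succ_apply', S_L2]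
    simp only [ih]
    split_ifs <;> first | rfl | (exfalso; omega) | (congr 2; omega)

/-- Multi-indices of level `< n`. -/
def below (n : ℕ) : Finset (ℕ × ℕ) := (range n ×ˢ range n).filter fun q => lev q < n

/-- All residuals of level `< n` are realised with levels in `[t, t + n - 1]`. -/
lemma exists_correction {n t D : ℕ} (hD : 3 * (t + n) + 5 ≤ D) (σ : ℕ × ℕ → CFn)
    (hσ : ∀ q, lev q < n → σ q ∈ V (lev q : ℕ) (D - 3 * lev q)) :
    ∃ E, GP 0 D t (t + n - 1) E ∧ ∀ q, lev q < n → S q E = σ q := by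
  have hw : ∀ q : ℕ × ℕ, ∃ E, lev q < n →
      GP (lev q : ℕ) (D - 3 * lev q) (t + n - 1 - lev q + 1 - (n - lev q)) (t + n - 1 - lev q) E ∧
      ∀ r, lev r < n - lev q → S r E = if lev r = 0 then σ q else 0 := by
    intro q
    by_cases h : lev q < n
    · obtain ⟨E, hE⟩ := exists_window (t + n - 1 - lev q) (n - lev q) _ _ (Or.inr (by omega))
        (σ q) (hσ q h)
      exact ⟨E, fun _ => hE⟩
    · exact ⟨0, fun h' => absurd h' h⟩
  choose E hE using hw
  refine ⟨∑ q ∈ below n, Alg.L1^[q.1] (Alg.L2^[q.2] (E q)), GP.sum fun q hq => ?_, fun r hr => ?_⟩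
  · have hq' : lev q < n := (mem_filter.1 hq).2
    have h := (((hE q hq').1).L2_iterate q.2).L1_iterate q.1
    have h2 : (2 : ZMod 2) = 0 := by decide
    rw [show ((lev q : ℕ) : ZMod 2) + (q.2 : ℕ) + (q.1 : ℕ) = 0 by
      simp only [lev]; push_cast; linear_combination ((q.1 : ZMod 2) + q.2) * h2,
      show D - 3 * lev q + 3 * q.2 + 3 * q.1 = D by simp only [lev] at *; omega] at h
    exact h.mono (by simp only [lev] at *; omega) (by simp only [lev] at *; omega)
  · rw [S_sum, Finset.sum_eq_single r]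
    · rw [S_L1_iterate, if_pos le_rfl, S_L2_iterate, if_pos le_rfl, Nat.sub_self, Nat.sub_self,
        (hE r hr).2 _ (by simp only [lev] at *; omega), if_pos (by simp [lev])]
    · intro q hq hne
      have hq' : lev q < n := (mem_filter.1 hq).2
      rw [S_L1_iterate]
      split_ifs with h1
      swap; · rfl
      rw [S_L2_iterate]
      split_ifs with h2
      swap; · rfl
      dsimp only at h2 ⊢
      rw [(hE q hq').2 _ (by simp only [lev] at *; omega), if_neg]
      intro h0
      apply hne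
      simp only [lev] at h0
      exact Prod.ext (by omega) (by omega)
    · intro h
      exfalso
      apply h
      simp only [lev] at hr
      exact mem_filter.2 ⟨mem_product.2 ⟨mem_range.2 (by omega), mem_range.2 (by omega)⟩, hr⟩

end Vale.Agent.P296.Alg
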