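import Vale.Agent.P296.Algebra.Section

/-!
The algebraic core: sections of `Sym^k E ⊗ O(alpha, beta)` without common zeros.
-/

namespace Vale.Agent.P296.Alg

open Finset

/-- A coefficient system with all its regularity certificates. -/
structure Sec (k : ℕ) where
  c : ℕ × ℕ → Fn
  G : Fin 2 → ℕ × ℕ → Fn
  hG : ∀ b q, lev q ≤ k →
    G b q ∈ W (lev q : ℕ) (outA k q - (k - lev q)) (outB k q - (k - lev q))
  eq : ∀ b q, lev q ≤ k → Tt k b q c = fF ^ (k - lev q) * G b q

lemma exists_sec {k : ℕ} {c : ℕ × ℕ → Fn} (h : Inv k k c) : ∃ S : Sec k, S.c = c := by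
  have hG : ∀ b q, ∃ G, lev q ≤ k →
      (G ∈ W (lev q : ℕ) (outA k q - (k - lev q)) (outB k q - (k - lev q)) ∧
        Tt k b q c = fF ^ (k - lev q) * G) := by
    intro b q
    by_cases hq : lev q ≤ k
    · obtain ⟨G, h1, h2⟩ := h.2 b q hq
      rw [show min k (k - lev q) = k - lev q by omega] at h1 h2
      exact ⟨G, fun _ => ⟨h1, h2⟩⟩
    · exact ⟨0, fun h' => absurd h' hq⟩
  choose G hG using hG
  exact ⟨⟨c, G, fun b q hq => (hG b q hq).1, fun b q hq => (hG b q hq).2⟩, rfl⟩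

/-- The value at a point of the cone. -/
noncomputable def Sec.val {k : ℕ} (S : Sec k) (b : Fin 2) (p : Pt) (φ : Fin 3 → ℂ) : ℂ :=
  ∑ q ∈ Ix k, S.G b q p / p.t b ^ (5 * (k - lev q)) *
    (φ 0 ^ q.1 * φ 1 ^ q.2 * φ 2 ^ (k - lev q))

open Classical in
/-- The section. -/
noncomputable def Sec.toFun {k : ℕ} (S : Sec k) : SecFun := fun b z t u v φ =>
  if h : OnCone z t u v then S.val b ⟨z, t, u, v, h⟩ φ else 0

lemma Sec.toFun_eq {k : ℕ} (S : Sec k) (b : Fin 2) {z t : Fin 2 → ℂ} {u v : ℂ}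
    (h : OnCone z t u v) (φ : Fin 3 → ℂ) : S.toFun b z t u v φ = S.val b ⟨z, t, u, v, h⟩ φ := by
  simp [Sec.toFun, h]

lemma W_weight_z {π : ZMod 2} {A B : ℕ} {f : Fn} (hf : f ∈ W π A B) (p p' : Pt) (c : ℂ)
    (h1 : p'.z = c • p.z) (h2 : p'.t = p.t) (h3 : p'.u = p.u) (h4 : p'.v = p.v) :
    f p' = c ^ A * f p := by
  induction hf using Submodule.span_induction with
  | mem x hx =>
    obtain ⟨a, a', d, d', e, e', hA, -, -, rfl⟩ := hx
    simp only [wmon, Pi.mul_apply, Pi.pow_apply, fz, ft, fu, fv, h1, h2, h3, h4, Pi.smul_apply,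
      smul_eq_mul, mul_pow, ← hA, pow_add]
    ring
  | zero => simp
  | add x y _ _ hx hy => simp only [Pi.add_apply, hx, hy]; ring
  | smul r x _ hx => simp only [Pi.smul_apply, smul_eq_mul, hx]; ring

lemma W_weight_t {π : ZMod 2} {A B : ℕ} {f : Fn} (hf : f ∈ W π A B) (p p' : Pt) (c : ℂ)
    (h1 : p'.z = p.z) (h2 : p'.t = c • p.t) (h3 : p'.u = c ^ 3 * p.u) (h4 : p'.v = c ^ 3 * p.v) :
    f p' = c ^ B * f p := by
  induction hf using Submodule.span_induction with
  | mem x hx =>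
    obtain ⟨a, a', d, d', e, e', -, hB, -, rfl⟩ := hx
    simp only [wmon, Pi.mul_apply, Pi.pow_apply, fz, ft, fu, fv, h1, h2, h3, h4, Pi.smul_apply,
      smul_eq_mul, mul_pow, ← hB, pow_add, ← pow_mul, mul_add]
    ring
  | zero => simp
  | add x y _ _ hx hy => simp only [Pi.add_apply, hx, hy]; ring
  | smul r x _ hx => simp only [Pi.smul_apply, smul_eq_mul, hx]; ring

lemma W_sign {n A B : ℕ} {f : Fn} (hf : f ∈ W (n : ℕ) A B) (p p' : Pt)
    (h1 : p'.z = p.z) (h2 : p'.t = p.t) (h3 : p'.u = -p.u) (h4 : p'.v = -p.v) :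
    f p' = (-1) ^ n * f p := by
  induction hf using Submodule.span_induction with
  | mem x hx =>
    obtain ⟨a, a', d, d', e, e', -, -, hπ, rfl⟩ := hx
    have hmod : (e + e') % 2 = n % 2 := (ZMod.natCast_eq_natCast_iff' _ _ _).1 hπ
    have : ((-1 : ℂ)) ^ n = (-1) ^ (e + e') := by
      rw [neg_one_pow_eq_pow_mod_two, ← hmod, ← neg_one_pow_eq_pow_mod_two]
    simp only [wmon, Pi.mul_apply, Pi.pow_apply, fz, ft, fu, fv, h1, h2, h3, h4, this,
      neg_pow p.u, neg_pow p.v, pow_add]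
    ring
  | zero => simp
  | add x y _ _ hx hy => simp only [Pi.add_apply, hx, hy]; ring
  | smul r x _ hx => simp only [Pi.smul_apply, smul_eq_mul, hx]; ring

/-- Where `F ≠ 0` a section is a polynomial in the global coordinates `X₀, X₁, X₂`. -/
lemma Sec.val_eq {k : ℕ} (S : Sec k) (b : Fin 2) (p : Pt) (φ : Fin 3 → ℂ) (ht : p.t b ≠ 0)
    (hF : fF p ≠ 0) :
    S.val b p φ = ∑ al ∈ Ix k, S.c al p * (φ 2 / fF p) ^ (k - lev al) *
      ((φ 0 - (p.z b / p.t b) ^ 5 * (φ 2 / fF p) * p.u) ^ al.1 *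
        (φ 1 - (p.z b / p.t b) ^ 5 * (φ 2 / fF p) * p.v) ^ al.2) := by
  set w := (p.z b / p.t b) ^ 5 * (φ 2 / fF p) with hw
  have hG : ∀ q ∈ Ix k, S.G b q p = (∑ al ∈ Ix k, p.z b ^ (5 * (lev al - lev q)) *
      p.t b ^ (5 * (k - lev al)) * KK p.u p.v q al * S.c al p) / fF p ^ (k - lev q) := by
    intro q hq
    rw [eq_div_iff (pow_ne_zero _ hF)]
    have h := congrFun (S.eq b q (mem_Ix.1 hq)) p
    simp only [Tt, Finset.sum_apply, Pi.mul_apply, Pi.pow_apply] at h
    rw [mul_comm, ← h]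
    refine sum_congr rfl fun al _ => ?_
    simp [fz, ft, fu, fv, KK, K1]
  rw [Sec.val]
  simp only [sum_congr rfl (fun q hq => by rw [hG q hq]) (f := fun q =>
    S.G b q p / p.t b ^ (5 * (k - lev q)) * (φ 0 ^ q.1 * φ 1 ^ q.2 * φ 2 ^ (k - lev q))),
    sum_div, sum_mul]
  rw [sum_comm]
  refine sum_congr rfl fun al hal => ?_
  rw [mem_Ix] at hal
  rw [← sum_KK_mul_pow (w * p.u) (w * p.v) (φ 0) (φ 1) al, mul_sum]
  have hbox : ∀ x ∈ box al, lev x ≤ lev al := by
    intro x hx; simp only [box, mem_product, mem_range, lev] at *; omega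
  rw [← sum_subset (s₁ := box al) (fun x hx => mem_Ix.2 ((hbox x hx).trans hal))
    (fun x _ hx => by
      rw [KK_eq_zero p.u p.v (q := x) (al := al) (by
        simp only [box, mem_product, mem_range] at hx; omega)]
      ring)]
  refine sum_congr rfl fun x hx => ?_
  obtain ⟨d, hd⟩ : ∃ d, lev al = lev x + d := ⟨lev al - lev x, by have := hbox x hx; omega⟩
  rw [KK_smul, hw, hd, Nat.add_sub_cancel_left,
    show k - lev x = (k - (lev x + d)) + d by omega, mul_pow, ← pow_mul, div_pow, div_pow, div_pow,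
    mul_add, pow_add, pow_add, pow_add]
  field_simp

lemma eval_fin9_eq (z t : Fin 2 → ℂ) (u v : ℂ) (φ : Fin 3 → ℂ) (p : MvPolynomial (Fin 6) ℂ) :
    MvPolynomial.eval (vars z t u v φ)
      (MvPolynomial.rename (Fin.castLE (by norm_num : 6 ≤ 9)) p)
      = MvPolynomial.eval ![z 0, z 1, t 0, t 1, u, v] p := by
  rw [MvPolynomial.eval_rename]
  have : vars z t u v φ ∘ Fin.castLE (by norm_num : 6 ≤ 9) = ![z 0, z 1, t 0, t 1, u, v] := by
    funext i; fin_cases i <;> simp [vars]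
  rw [this]

lemma Sec.rational' {k : ℕ} (S : Sec k) (b : Fin 2) :
    ∃ (P : MvPolynomial (Fin 9) ℂ), ∀ (p : Pt), p.t b ≠ 0 → ∀ φ,
      S.val b p φ = MvPolynomial.eval (vars p.z p.t p.u p.v φ) P / p.t b ^ (5 * k) := by
  have hq : ∀ q, ∃ P : MvPolynomial (Fin 6) ℂ, lev q ≤ k →
      ∀ x : Pt, S.G b q x = MvPolynomial.eval ![x.z 0, x.z 1, x.t 0, x.t 1, x.u, x.v] P := by
    intro q
    by_cases h : lev q ≤ k
    · obtain ⟨P, hP⟩ := isPol_of_mem (S.hG b q h); exact ⟨P, fun _ => hP⟩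
    · exact ⟨0, fun h' => absurd h' h⟩
  choose P hP using hq
  refine ⟨∑ q ∈ Ix k, MvPolynomial.rename (Fin.castLE (by norm_num : 6 ≤ 9)) (P q) *
    (.X (if b = 0 then 2 else 3)) ^ (5 * lev q) * (.X 6 ^ q.1 * .X 7 ^ q.2 * .X 8 ^ (k - lev q)),
    fun p ht φ => ?_⟩
  rw [Sec.val, map_sum, sum_div]
  refine sum_congr rfl fun q hq => ?_
  rw [mem_Ix] at hq
  have hv : vars p.z p.t p.u p.v φ (if b = 0 then 2 else 3) = p.t b := by
    fin_cases b <;> simp [vars]
  simp only [map_mul, map_pow, MvPolynomial.eval_X, eval_fin9_eq, ← hP q hq p, hv]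
  rw [show vars p.z p.t p.u p.v φ 6 = φ 0 from rfl, show vars p.z p.t p.u p.v φ 7 = φ 1 from rfl,
    show vars p.z p.t p.u p.v φ 8 = φ 2 from rfl,
    show 5 * k = 5 * (k - lev q) + 5 * lev q by omega, pow_add]
  field_simp

lemma dD_eq {z t : Fin 2 → ℂ} (h0 : t 0 ≠ 0) (h1 : t 1 ≠ 0)
    (hF : z 0 * t 1 - z 1 * t 0 ≠ 0) :
    dD z t * (z 0 * t 1 - z 1 * t 0) = (z 0 / t 0) ^ 5 - (z 1 / t 1) ^ 5 := by
  simp only [dD, sum_range_succ, sum_range_zero]
  field_simp
  ring

theorem Sec.isSection {k : ℕ} (S : Sec k) : IsSection k alpha beta S.toFun := by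
  refine ⟨fun b => ?_, ?_, ?_, ?_, ?_, ?_⟩
  · obtain ⟨P, hP⟩ := S.rational' b
    exact ⟨P, 5 * k, fun z t u v h ht φ => by rw [S.toFun_eq b h]; exact hP _ ht φ⟩
  · intro b z t u v h _ c φ
    rw [S.toFun_eq b h, S.toFun_eq b h, Sec.val, Sec.val, mul_sum]
    refine sum_congr rfl fun q hq => ?_
    rw [mem_Ix] at hq
    simp only [Pi.smul_apply, smul_eq_mul, mul_pow]
    rw [show c ^ k = c ^ q.1 * c ^ q.2 * c ^ (k - lev q) by
      rw [← pow_add, ← pow_add]; congr 1; simp only [lev] at *; omega]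
    ring
  · intro b z t u v h _ c hc φ
    have h' : OnCone (c • z) t u v := ⟨smul_ne_zero hc h.hz, h.ht, h.hu, h.hv⟩
    rw [S.toFun_eq b h', S.toFun_eq b h, Sec.val, Sec.val, mul_sum]
    refine sum_congr rfl fun q hq => ?_
    rw [mem_Ix] at hq
    rw [W_weight_z (S.hG b q hq) ⟨z, t, u, v, h⟩ ⟨c • z, t, u, v, h'⟩ c rfl rfl rfl rfl,
      show outA k q - (k - lev q) = alpha + 4 * (k - lev q) by simp only [outA]; omega, pow_add,
      pow_mul]
    simp only [Matrix.cons_val_zero, Matrix.cons_val_one, Matrix.cons_val, div_pow]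
    field_simp
  · intro b z t u v h _ c hc φ
    have h' : OnCone z (c • t) (c ^ 3 * u) (c ^ 3 * v) := ⟨h.hz, smul_ne_zero hc h.ht,
      by simp only [Pi.smul_apply, smul_eq_mul]; linear_combination (c ^ 6) * h.hu,
      by simp only [Pi.smul_apply, smul_eq_mul]; linear_combination (c ^ 6) * h.hv⟩
    rw [S.toFun_eq b h', S.toFun_eq b h, Sec.val, Sec.val, mul_sum]
    refine sum_congr rfl fun q hq => ?_
    rw [mem_Ix] at hq
    rw [W_weight_t (S.hG b q hq) ⟨z, t, u, v, h⟩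
      ⟨z, c • t, c ^ 3 * u, c ^ 3 * v, h'⟩ c rfl rfl rfl rfl,
      show outB k q - (k - lev q) = beta + 4 * (k - lev q) + 2 * lev q by
        simp only [outB]; omega, pow_add, pow_add]
    simp only [Matrix.cons_val_zero, Matrix.cons_val_one, Matrix.cons_val, Pi.smul_apply,
      smul_eq_mul, div_pow, mul_pow, lev, mul_add, pow_add, ← pow_mul]
    field_simp
    ring
  · intro b z t u v h _ φ
    have h' : OnCone z t (-u) (-v) :=
      ⟨h.hz, h.ht, by linear_combination h.hu, by linear_combination h.hv⟩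
    rw [S.toFun_eq b h', S.toFun_eq b h, Sec.val, Sec.val]
    refine sum_congr rfl fun q hq => ?_
    rw [mem_Ix] at hq
    rw [W_sign (S.hG b q hq) ⟨z, t, u, v, h⟩ ⟨z, t, -u, -v, h'⟩ rfl rfl rfl rfl]
    simp only [Matrix.cons_val_zero, Matrix.cons_val_one, Matrix.cons_val, neg_pow (φ 0),
      neg_pow (φ 1), lev, pow_add]
    have e1 : ((-1 : ℂ) ^ q.1) * (-1) ^ q.1 = 1 := by rw [← mul_pow]; norm_num
    have e2 : ((-1 : ℂ) ^ q.2) * (-1) ^ q.2 = 1 := by rw [← mul_pow]; norm_num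
    calc _ = ((-1 : ℂ) ^ q.1 * (-1) ^ q.1) * ((-1) ^ q.2 * (-1) ^ q.2) *
          (S.G b q ⟨z, t, u, v, h⟩ / t b ^ (5 * (k - (q.1 + q.2))) *
            (φ 0 ^ q.1 * φ 1 ^ q.2 * φ 2 ^ (k - (q.1 + q.2)))) := by ring
      _ = _ := by rw [e1, e2, one_mul, one_mul]
  · intro z t u v h h0 h1 φ
    obtain ⟨P0, hP0⟩ := S.rational' 0
    obtain ⟨P1, hP1⟩ := S.rational' 1
    set f : (Fin 2 → ℂ) → ℂ := fun z => MvPolynomial.eval (vars z t u v
      ![φ 0 - φ 2 * dD z t * u, φ 1 - φ 2 * dD z t * v, φ 2]) P1 / t 1 ^ (5 * k) with hf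
    set g : (Fin 2 → ℂ) → ℂ :=
      fun z => MvPolynomial.eval (vars z t u v φ) P0 / t 0 ^ (5 * k) with hg
    have hdD : Continuous fun z : Fin 2 → ℂ => dD z t := by
      simp only [dD]; fun_prop
    have hfg : f = g := by
      refine eq_on_diag_of_eq_off (t := t) ?_ ?_ h.ht fun z hz hF => ?_
      · refine Continuous.div_const ((MvPolynomial.continuous_eval P1).comp ?_) _
        refine continuous_pi fun i => ?_
        fin_cases i <;> simp [vars] <;> fun_prop
      · refine Continuous.div_const ((MvPolynomial.continuous_eval P0).comp ?_) _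
        refine continuous_pi fun i => ?_
        fin_cases i <;> simp [vars] <;> fun_prop
      · have hp : OnCone z t u v := ⟨hz, h.ht, h.hu, h.hv⟩
        set p : Pt := ⟨z, t, u, v, hp⟩ with hpdef
        simp only [hf, hg]
        rw [← hP1 p h1, ← hP0 p h0, S.val_eq 1 p _ h1 hF, S.val_eq 0 p _ h0 hF]
        refine sum_congr rfl fun al _ => ?_
        have hd := dD_eq h0 h1 hF
        have hFp : fF p = z 0 * t 1 - z 1 * t 0 := rfl
        simp only [Matrix.cons_val_zero, Matrix.cons_val_one, Matrix.cons_val]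
        have key : dD z t = ((z 0 / t 0) ^ 5 - (z 1 / t 1) ^ 5) / fF p := by
          rw [hFp, eq_div_iff hF, hd]
        rw [key]
        simp only [hpdef]
        ring
    rw [S.toFun_eq 1 h, S.toFun_eq 0 h, hP1 _ h1, hP0 _ h0]
    exact congrFun hfg z

/-- `u` or `v`. -/
def fuv (j : Fin 2) : Fn := if j = 0 then fu else fv

lemma fuv_mem (j : Fin 2) : fuv j ∈ W 1 0 3 := by
  fin_cases j <;> simp [fuv, fu_mem, fv_mem]

/-- A monomial of given bidegree and parity, built from `z_a`, `t_b` and `u` or `v`. -/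
noncomputable def mon (n A B : ℕ) (a b j : Fin 2) : Fn :=
  fuv j ^ (n % 2) * fz a ^ A * ft b ^ (B - 3 * (n % 2))

lemma mon_mem {n A B : ℕ} (hB : 3 ≤ B) (a b j : Fin 2) : mon n A B a b j ∈ W (n : ℕ) A B := by
  refine W_congr (W_mul (W_mul (W_pow (fuv_mem j) _) (W_pow (fz_mem a) A)) (W_pow (ft_mem b) _))
    ?_ ?_ ?_
  · simp
  · simp
  · omega

lemma mon_ne {n A B : ℕ} {a b j : Fin 2} {p : Pt} (ha : p.z a ≠ 0) (hb : p.t b ≠ 0)
    (hj : fuv j p ≠ 0) : mon n A B a b j p ≠ 0 := by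
  simp only [mon, Pi.mul_apply, Pi.pow_apply, fz, ft]
  exact mul_ne_zero (mul_ne_zero (pow_ne_zero _ hj) (pow_ne_zero _ ha)) (pow_ne_zero _ hb)

lemma exists_ne_zero_coord (p : Pt) : (∃ a, p.z a ≠ 0) ∧ ∃ j, fuv j p ≠ 0 := by
  constructor
  · by_contra h
    push Not at h
    exact p.h.hz (funext h)
  · by_contra h
    push Not at h
    have hu : p.u = 0 := h 0
    have hv : p.v = 0 := by simpa [fuv, fv] using h 1
    have h1 := p.h.hu
    have h2 := p.h.hv
    rw [hu] at h1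
    rw [hv] at h2
    apply p.h.ht
    funext i
    fin_cases i
    · have : p.t 0 ^ 6 = 0 := by linear_combination (h1 - h2) / 2
      simpa using this
    · have : p.t 1 ^ 6 = 0 := by linear_combination -(h1 + h2) / 2
      simpa using this

/-- The multi-index `i • e_j`. -/
def ax (j : Fin 2) (i : ℕ) : ℕ × ℕ := if j = 0 then (i, 0) else (0, i)

@[simp] lemma lev_ax (j : Fin 2) (i : ℕ) : lev (ax j i) = i := by
  fin_cases j <;> simp [ax, lev]

lemma shifted_update {k : ℕ} {al₀ : ℕ × ℕ} {f : Fn}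
    (hf : f ∈ W (lev al₀ : ℕ) (degA k al₀) (degB al₀)) :
    Shifted k 0 (fun al => if al = al₀ then f else 0) := by
  intro al _
  by_cases h : al = al₀
  · subst h; exact Or.inr ⟨Nat.zero_le _, Nat.zero_le _, by simpa using hf⟩
  · exact Or.inl (if_neg h)

/-- The coefficient system of a middle section. -/
noncomputable def midC (k : ℕ) (j a b j' : Fin 2) : ℕ × ℕ → Fn := fun al =>
  if al = ax j (k / 2) then
    mon (k / 2) (degA k (ax j (k / 2)) - k) (degB (ax j (k / 2)) - k) a b j' else 0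

lemma midC_shifted (k : ℕ) (j a b j' : Fin 2) : Shifted k k (midC k j a b j') := by
  intro al _
  by_cases h : al = ax j (k / 2)
  · subst h
    refine Or.inr ⟨?_, ?_, ?_⟩
    · simp only [degA, lev_ax, alpha]; omega
    · simp only [degB, lev_ax, beta]; omega
    · simp only [midC, if_true]
      exact W_congr (mon_mem (by simp only [degB, lev_ax, beta]; omega) a b j') (by simp) rfl rfl
  · exact Or.inl (if_neg h)

/-- The middle section `F^k X₀^i X_j^(k-i)`. -/
noncomputable def midSec (k : ℕ) (j a b j' : Fin 2) : Sec k where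
  c al := fF ^ k * midC k j a b j' al
  G b' q := fF ^ lev q * Tt k b' q (midC k j a b j')
  hG b' q hq := by
    rcases Tt_eq_zero_or (midC_shifted k j a b j') b' q with h | ⟨h1, h2⟩
    · rw [h, mul_zero]; exact zero_mem _
    · exact W_congr (W_mul (W_pow fF_mem (lev q)) (Tt_mem (midC_shifted k j a b j') b' q))
        (by simp) (by omega) (by omega)
  eq b' q hq := by
    rw [Tt_mul, ← mul_assoc, ← pow_add, Nat.sub_add_cancel hq]

/-- The index set of the family. -/
abbrev Idx : Type := (Fin 2 × Fin 2 × Fin 2 × Fin 2) ⊕ (Fin 2 × Fin 2 × Fin 2 × Fin 2) ⊕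
  (Fin 2 × Fin 2 × Fin 2)

lemma exists_top (k : ℕ) (hk : 1 ≤ k) (j a b j' : Fin 2) : ∃ S : Sec k, ∀ al, lev al = k →
    S.c al = if al = ax j k then mon k (degA k (ax j k)) (degB (ax j k)) a b j' else 0 := by
  obtain ⟨c, hc, hc'⟩ := exists_inv (shifted_update (k := k) (al₀ := ax j k)
    (f := mon k (degA k (ax j k)) (degB (ax j k)) a b j')
    (W_congr (mon_mem (by simp only [degB, beta]; omega) a b j') (by simp) rfl rfl)) 0 (by omega)
  obtain ⟨S, rfl⟩ := exists_sec hc
  exact ⟨S, fun al hal => hc' al (Or.inr (by omega))⟩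

lemma exists_bot (k : ℕ) (a b j' : Fin 2) : ∃ S : Sec k,
    S.c (0, 0) = mon 0 (degA k (0, 0)) (degB (0, 0)) a b j' := by
  obtain ⟨c, hc, hc'⟩ := exists_inv (shifted_update (k := k) (al₀ := ((0, 0) : ℕ × ℕ))
    (f := mon 0 (degA k (0, 0)) (degB (0, 0)) a b j')
    (W_congr (mon_mem (by simp [degB, beta, lev]) a b j') (by simp [lev]) rfl rfl)) 1 le_rfl
  obtain ⟨S, rfl⟩ := exists_sec hc
  exact ⟨S, by rw [hc' _ (Or.inl (by simp [lev]))]; simp⟩

/-- A top section at a point with `φ_h = 0`. -/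
lemma Sec.val_top {k : ℕ} (S : Sec k) (b : Fin 2) (p : Pt) (φ : Fin 3 → ℂ) (hφ : φ 2 = 0) :
    S.val b p φ = ∑ q ∈ (Ix k).filter (fun q => lev q = k),
      S.c q p * (φ 0 ^ q.1 * φ 1 ^ q.2) := by
  rw [Sec.val, sum_filter]
  refine sum_congr rfl fun q hq => ?_
  rw [mem_Ix] at hq
  split_ifs with h
  · have he := S.eq b q hq
    rw [h, Nat.sub_self, pow_zero, one_mul, Tt, sum_eq_single q] at he
    · simp only [h, Nat.sub_self, mul_zero, pow_zero, div_one, mul_one]
      rw [← he]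
      simp [KK_self, h]
    · intro al hal hne
      rw [mem_Ix] at hal
      rw [KK_eq_zero fu fv (by
        simp only [lev] at *
        by_contra hh
        exact hne (Prod.ext (by omega) (by omega)))]
      simp
    · exact fun hh => absurd (mem_Ix.2 hq) hh
  · rw [hφ, zero_pow (by omega : k - lev q ≠ 0)]; simp

theorem core : Core := by
  classical
  intro k hk
  choose top htop using fun j a b j' => exists_top k hk j a b j'
  choose bot hbot using fun a b j' => exists_bot k a b j'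
  set fam : Idx → SecFun := fun i => match i with
    | .inl (j, a, b, j') => (top j a b j').toFun
    | .inr (.inl (j, a, b, j')) => (midSec k j a b j').toFun
    | .inr (.inr (a, b, j')) => (bot a b j').toFun with hfam
  refine ⟨Fintype.card Idx, fun l => fam ((Fintype.equivFin Idx).symm l), fun l => ?_,
    fun b z t u v h htb φ hφ => ?_⟩
  · show IsSection k alpha beta (fam ((Fintype.equivFin Idx).symm l))
    rcases (Fintype.equivFin Idx).symm l with ⟨j, a, b, j'⟩ | ⟨j, a, b, j'⟩ | ⟨a, b, j'⟩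
    · exact (top j a b j').isSection
    · exact (midSec k j a b j').isSection
    · exact (bot a b j').isSection
  suffices H : ∃ i, fam i b z t u v φ ≠ 0 by
    obtain ⟨i, hi⟩ := H
    exact ⟨Fintype.equivFin Idx i, by simpa using hi⟩
  set p : Pt := ⟨z, t, u, v, h⟩ with hp
  obtain ⟨⟨a, ha⟩, j', hj'⟩ := exists_ne_zero_coord p
  have hb : p.t b ≠ 0 := htb
  by_cases h2 : φ 2 = 0
  · obtain ⟨j, hj⟩ : ∃ j : Fin 2, φ j.castSucc ≠ 0 := by
      by_contra hh
      push Not at hh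
      exact hφ (funext fun i => by fin_cases i; exacts [hh 0, hh 1, h2])
    refine ⟨.inl (j, a, b, j'), ?_⟩
    simp only [hfam]
    rw [Sec.toFun_eq _ _ h, Sec.val_top _ _ _ _ h2, sum_eq_single (ax j k)]
    · rw [htop _ _ _ _ _ (lev_ax _ _), if_pos rfl]
      refine mul_ne_zero (mon_ne ha hb hj') ?_
      fin_cases j <;> simpa [ax] using pow_ne_zero k hj
    · intro q hq hne
      rw [htop _ _ _ _ _ (mem_filter.1 hq).2, if_neg hne]
      simp
    · intro hh
      exfalso
      exact hh (mem_filter.2 ⟨mem_Ix.2 (by simp), by simp⟩)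
  by_cases hF : fF p = 0
  · obtain ⟨j, hj⟩ := (exists_ne_zero_coord p).2
    refine ⟨.inr (.inl (j, a, b, j')), ?_⟩
    simp only [hfam]
    rw [Sec.toFun_eq _ _ h, Sec.val, sum_eq_single (0, 0)]
    · simp only [midSec, lev, add_zero, pow_zero, one_mul, Nat.sub_zero]
      refine mul_ne_zero (div_ne_zero ?_ (pow_ne_zero _ htb)) (pow_ne_zero _ h2)
      have hzb : p.z b ≠ 0 := by
        intro hz0
        apply p.h.hz
        have hF' : p.z 0 * p.t 1 - p.z 1 * p.t 0 = 0 := hF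
        funext i
        fin_cases b <;> fin_cases i <;> simp at hz0 hb ⊢ <;> first
          | exact hz0
          | (rw [hz0] at hF'; simpa [hb] using hF')
      rw [Tt, Finset.sum_apply, sum_eq_single (ax j (k / 2))]
      · simp only [midC, if_true, Pi.mul_apply, Pi.pow_apply, fz, ft, lev_ax]
        refine mul_ne_zero (mul_ne_zero (mul_ne_zero (pow_ne_zero _ hzb) (pow_ne_zero _ hb)) ?_)
          (mon_ne ha hb hj')
        fin_cases j <;> simp [ax, KK, K1, fuv, fu, fv] at hj ⊢ <;>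
          exact fun h => absurd h hj
      · intro al _ hne
        simp [midC, hne]
      · exact fun hh => absurd (mem_Ix.2 (by simp; omega)) hh
    · intro q _ hne
      have hl : lev q ≠ 0 := by
        intro h0; simp only [lev] at h0; exact hne (Prod.ext (by omega) (by omega))
      simp [midSec, hp ▸ hF, zero_pow hl]
    · exact fun hh => absurd (mem_Ix.2 (by simp [lev])) hh
  · set X : Fin 2 → ℂ := ![φ 0 - (p.z b / p.t b) ^ 5 * (φ 2 / fF p) * p.u,
      φ 1 - (p.z b / p.t b) ^ 5 * (φ 2 / fF p) * p.v] with hX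
    have h20 : φ 2 / fF p ≠ 0 := div_ne_zero h2 hF
    by_cases hXj : ∃ j, X j ≠ 0
    · obtain ⟨j, hj⟩ := hXj
      refine ⟨.inr (.inl (j, a, b, j')), ?_⟩
      simp only [hfam]
      rw [Sec.toFun_eq _ _ h, ← hp, Sec.val_eq _ b p φ htb hF, sum_eq_single (ax j (k / 2))]
      · simp only [midSec, midC, if_true, Pi.mul_apply, Pi.pow_apply]
        refine mul_ne_zero (mul_ne_zero (mul_ne_zero (pow_ne_zero _ hF) (mon_ne ha hb hj'))
          (pow_ne_zero _ h20)) ?_
        fin_cases j <;> simpa [ax, hX] using pow_ne_zero (k / 2) hj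
      · intro al _ hne
        simp [midSec, midC, hne]
      · exact fun hh => absurd (mem_Ix.2 (by simp; omega)) hh
    · push Not at hXj
      refine ⟨.inr (.inr (a, b, j')), ?_⟩
      simp only [hfam]
      rw [Sec.toFun_eq _ _ h, ← hp, Sec.val_eq _ b p φ htb hF, sum_eq_single (0, 0)]
      · rw [hbot]
        simp only [pow_zero, mul_one]
        exact mul_ne_zero (mon_ne ha hb hj') (pow_ne_zero _ h20)
      · intro al _ hne
        have e0 : φ 0 - (p.z b / p.t b) ^ 5 * (φ 2 / fF p) * p.u = 0 := hXj 0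
        have e1 : φ 1 - (p.z b / p.t b) ^ 5 * (φ 2 / fF p) * p.v = 0 := hXj 1
        rw [e0, e1]
        rcases Nat.eq_zero_or_pos al.1 with h' | h'
        · rw [zero_pow (M₀ := ℂ) (n := al.2) (fun h'' => hne (Prod.ext h' h''))]; simp
        · rw [zero_pow (M₀ := ℂ) (n := al.1) (by omega)]; simp
      · exact fun hh => absurd (mem_Ix.2 (by simp [lev])) hh

end Vale.Agent.P296.Alg
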