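import Vale.Agent.P296.Algebra.Jet

/-!
Coefficient systems, the inductive correction, and the sections they define.
-/

namespace Vale.Agent.P296.Alg

open Finset

/-- All multi-indices of level `≤ k`. -/
def Ix (k : ℕ) : Finset (ℕ × ℕ) := below (k + 1)

lemma mem_Ix {k : ℕ} {q : ℕ × ℕ} : q ∈ Ix k ↔ lev q ≤ k := by
  rw [Ix, below, mem_filter, mem_product, mem_range, mem_range]
  simp only [lev]
  omega

/-- The degree in `z` of the `al`-coefficient. -/
def degA (k : ℕ) (al : ℕ × ℕ) : ℕ := alpha + 5 * (k - lev al)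

/-- The degree in `t` of the `al`-coefficient. -/
def degB (al : ℕ × ℕ) : ℕ := beta + 2 * lev al

/-- The degree in `z` of the Taylor coefficient `q`. -/
def outA (k : ℕ) (q : ℕ × ℕ) : ℕ := alpha + 5 * (k - lev q)

/-- The degree in `t` of the Taylor coefficient `q`. -/
def outB (k : ℕ) (q : ℕ × ℕ) : ℕ := beta + 5 * k - 3 * lev q

/-- The Taylor coefficient in the frame `b`, denominators cleared. -/
noncomputable def Tt (k : ℕ) (b : Fin 2) (q : ℕ × ℕ) (c : ℕ × ℕ → Fn) : Fn :=
  ∑ al ∈ Ix k, fz b ^ (5 * (lev al - lev q)) * ft b ^ (5 * (k - lev al)) * KK fu fv q al * c al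

lemma Tt_add (k : ℕ) (b : Fin 2) (q : ℕ × ℕ) (c c' : ℕ × ℕ → Fn) :
    Tt k b q (c + c') = Tt k b q c + Tt k b q c' := by
  simp [Tt, mul_add, sum_add_distrib]

lemma Tt_mul (k : ℕ) (b : Fin 2) (q : ℕ × ℕ) (f : Fn) (c : ℕ × ℕ → Fn) :
    Tt k b q (fun al => f * c al) = f * Tt k b q c := by
  simp only [Tt, mul_sum]
  exact sum_congr rfl fun al _ => by ring

lemma K1_fu_mem (q n : ℕ) (h : q ≤ n) :
    K1 fu q n ∈ W ((n - q : ℕ) : ZMod 2) 0 (3 * (n - q)) := by
  have h1 := W_pow (neg_mem fu_mem) (n - q)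
  simp only [K1]
  rw [← nsmul_eq_mul]
  exact nsmul_mem (W_congr h1 (by simp) (by ring) (by ring)) _

lemma K1_fv_mem (q n : ℕ) (h : q ≤ n) :
    K1 fv q n ∈ W ((n - q : ℕ) : ZMod 2) 0 (3 * (n - q)) := by
  have h1 := W_pow (neg_mem fv_mem) (n - q)
  simp only [K1]
  rw [← nsmul_eq_mul]
  exact nsmul_mem (W_congr h1 (by simp) (by ring) (by ring)) _

/-- Shifted admissibility of a coefficient system. -/
def Shifted (k m : ℕ) (c : ℕ × ℕ → Fn) : Prop :=
  ∀ al, lev al ≤ k → c al = 0 ∨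
    (m ≤ degA k al ∧ m ≤ degB al ∧ c al ∈ W (lev al : ℕ) (degA k al - m) (degB al - m))

lemma Tt_mem {k m : ℕ} {c : ℕ × ℕ → Fn} (hc : Shifted k m c) (b : Fin 2) (q : ℕ × ℕ) :
    Tt k b q c ∈ W (lev q : ℕ) (outA k q - m) (outB k q - m) := by
  refine sum_mem fun al hal => ?_
  rw [mem_Ix] at hal
  by_cases h : al.1 < q.1 ∨ al.2 < q.2
  · simp [KK_eq_zero _ _ h]
  rcases hc al hal with h0 | ⟨hA, hB, h0⟩
  · simp [h0]
  have h1 := W_mul (W_mul (W_mul (W_pow (fz_mem b) (5 * (lev al - lev q)))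
    (W_pow (ft_mem b) (5 * (k - lev al))))
    (W_mul (K1_fu_mem q.1 al.1 (by omega)) (K1_fv_mem q.2 al.2 (by omega)))) h0
  refine W_congr h1 ?_ ?_ ?_
  · simp only [smul_zero, zero_add]
    have h2 : (2 : ZMod 2) = 0 := by decide
    have e1 : al.1 = (al.1 - q.1) + q.1 := by omega
    have e2 : al.2 = (al.2 - q.2) + q.2 := by omega
    simp only [lev]
    conv_lhs => arg 2; rw [e1, e2]
    push_cast
    linear_combination (((al.1 - q.1 : ℕ) : ZMod 2) + ((al.2 - q.2 : ℕ) : ZMod 2)) * h2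
  · simp only [degA, outA, lev] at *; omega
  · simp only [degB, outB, lev] at *; omega

lemma Tt_eq_zero_or {k m : ℕ} {c : ℕ × ℕ → Fn} (hc : Shifted k m c) (b : Fin 2) (q : ℕ × ℕ) :
    Tt k b q c = 0 ∨ (m ≤ outA k q ∧ m ≤ outB k q) := by
  by_cases h0 : m ≤ outA k q ∧ m ≤ outB k q
  · exact Or.inr h0
  refine Or.inl (sum_eq_zero fun al hal => ?_)
  rw [mem_Ix] at hal
  by_cases h : al.1 < q.1 ∨ al.2 < q.2
  · simp [KK_eq_zero _ _ h]
  rcases hc al hal with h1 | ⟨hA, hB, -⟩
  · simp [h1]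
  exfalso
  apply h0
  constructor
  · simp only [degA, outA, lev] at *; omega
  · simp only [degB, outB, lev] at *; omega

lemma IsPol.add {f g : Fn} (hf : IsPol f) (hg : IsPol g) : IsPol (f + g) := by
  obtain ⟨p, hp⟩ := hf
  obtain ⟨q, hq⟩ := hg
  exact ⟨p + q, fun a => by simp [hp a, hq a]⟩

lemma IsPol.mul {f g : Fn} (hf : IsPol f) (hg : IsPol g) : IsPol (f * g) := by
  obtain ⟨p, hp⟩ := hf
  obtain ⟨q, hq⟩ := hg
  exact ⟨p * q, fun a => by simp [hp a, hq a]⟩

lemma IsPol.sum {ι : Type*} {s : Finset ι} {f : ι → Fn} (h : ∀ i ∈ s, IsPol (f i)) :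
    IsPol (∑ i ∈ s, f i) :=
  Finset.sum_induction f IsPol (fun _ _ => IsPol.add) ⟨0, by simp⟩ h

lemma IsPol.pow {f : Fn} (hf : IsPol f) (n : ℕ) : IsPol (f ^ n) := by
  induction n with
  | zero => exact ⟨1, by simp⟩
  | succ n ih => rw [pow_succ]; exact ih.mul hf

/-- `(z₀⁵t₁⁵ - z₁⁵t₀⁵) / F`. -/
noncomputable def gG : Fn := ∑ i ∈ range 5, (fz 0 * ft 1) ^ i * (fz 1 * ft 0) ^ (4 - i)

lemma fF_mul_gG : fF * gG = fz 0 ^ 5 * ft 1 ^ 5 - fz 1 ^ 5 * ft 0 ^ 5 := by
  funext p
  simp [gG, fF, fz, ft, sum_range_succ]; ring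

lemma isPol_gG : IsPol gG :=
  IsPol.sum fun i _ => (((isPol_of_mem (fz_mem 0)).mul (isPol_of_mem (ft_mem 1))).pow i).mul
    (((isPol_of_mem (fz_mem 1)).mul (isPol_of_mem (ft_mem 0))).pow (4 - i))

/-- The two frames differ by the shift `(ρ₀ - ρ₁)(u,v)`. -/
lemma Tt_transform (k : ℕ) (q : ℕ × ℕ) (c : ℕ × ℕ → Fn) :
    ft 1 ^ (5 * (k - lev q)) * Tt k 0 q c = ∑ q' ∈ Ix k,
      (fF * gG) ^ (lev q' - lev q) * ft 0 ^ (5 * (k - lev q')) * KK fu fv q q' * Tt k 1 q' c := by
  simp only [Tt, mul_sum]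
  rw [sum_comm (s := Ix k) (t := Ix k)]
  refine sum_congr rfl fun al hal => ?_
  rw [mem_Ix] at hal
  have hbox : ∀ x ∈ box al, lev x ≤ lev al := by
    intro x hx; simp only [box, mem_product, mem_range, lev] at *; omega
  rw [← sum_subset (s₁ := box al) (fun x hx => mem_Ix.2 ((hbox x hx).trans hal))
    (fun x _ hx => by
      rw [KK_eq_zero fu fv (q := x) (al := al) (by
        simp only [box, mem_product, mem_range] at hx; omega)]
      ring)]
  by_cases h : al.1 < q.1 ∨ al.2 < q.2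
  · rw [KK_eq_zero fu fv (q := q) (al := al) h]
    simp only [mul_zero, zero_mul]
    refine (sum_eq_zero fun x hx => ?_).symm
    rw [KK_eq_zero fu fv (q := q) (al := x) (by
      simp only [box, mem_product, mem_range] at hx; omega)]
    ring
  have hql : lev q ≤ lev al := by simp only [lev]; omega
  set d := k - lev al with hd
  have hterm : ∀ x ∈ box al,
      (fF * gG) ^ (lev x - lev q) * ft 0 ^ (5 * (k - lev x)) * KK fu fv q x *
          (fz 1 ^ (5 * (lev al - lev x)) * ft 1 ^ (5 * d) * KK fu fv x al * c al)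
        = ((ft 0 * ft 1) ^ (5 * d) * c al) *
          (KK (fF * gG * fu) (fF * gG * fv) q x *
            KK (fz 1 ^ 5 * ft 0 ^ 5 * fu) (fz 1 ^ 5 * ft 0 ^ 5 * fv) x al) := by
    intro x hx
    have := hbox x hx
    rw [KK_smul, KK_smul, show 5 * (k - lev x) = 5 * d + 5 * (lev al - lev x) by omega, pow_add,
      mul_pow (fz 1 ^ 5), ← pow_mul (fz 1), ← pow_mul (ft 0), mul_pow (ft 0)]
    ring
  rw [sum_congr rfl hterm, ← mul_sum, KK_comp, ← add_mul, ← add_mul, KK_smul, fF_mul_gG,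
    sub_add_cancel, show 5 * (k - lev q) = 5 * d + 5 * (lev al - lev q) by omega, pow_add,
    mul_pow (fz 0 ^ 5), ← pow_mul (fz 0), ← pow_mul (ft 1), mul_pow (ft 0)]
  ring

/-- The divisibility reached after `m` steps. -/
def Inv (k m : ℕ) (c : ℕ × ℕ → Fn) : Prop :=
  Shifted k 0 c ∧ ∀ b q, lev q ≤ k → ∃ G ∈ W (lev q : ℕ) (outA k q - min m (k - lev q))
    (outB k q - min m (k - lev q)), Tt k b q c = fF ^ min m (k - lev q) * G

lemma inv_zero {k : ℕ} {c : ℕ × ℕ → Fn} (hc : Shifted k 0 c) : Inv k 0 c :=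
  ⟨hc, fun b q _ => ⟨Tt k b q c, by simpa using Tt_mem hc b q, by simp⟩⟩

lemma fF_pow_cancel {m : ℕ} {f g : Fn} (hf : IsPol f) (hg : IsPol g)
    (h : fF ^ m * f = fF ^ m * g) : f = g :=
  hf.cancel hg fun x hx => mul_left_cancel₀ (pow_ne_zero m hx) (congrFun h x)

/-- The residual on the diagonal. -/
lemma exists_residual {k m : ℕ} {c : ℕ × ℕ → Fn} (hc : Inv k m c) (q : ℕ × ℕ) (hq : lev q < k - m)
    (G : Fin 2 → Fn) (hG : ∀ b, G b ∈ W (lev q : ℕ) (outA k q - m) (outB k q - m))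
    (hGe : ∀ b, Tt k b q c = fF ^ m * G b) :
    ∃ σ ∈ V (lev q : ℕ) (alpha + beta + 5 * k - 2 * m - 3 * lev q),
      ∀ b, diag (G b) = ct b ^ (5 * (k - lev q)) * σ := by
  classical
  have hsum : ∃ H, IsPol H ∧ ∑ q' ∈ (Ix k).erase q,
      (fF * gG) ^ (lev q' - lev q) * ft 0 ^ (5 * (k - lev q')) * KK fu fv q q' * Tt k 1 q' c
        = fF ^ (m + 1) * H := by
    refine Finset.sum_induction _ (fun f => ∃ H, IsPol H ∧ f = fF ^ (m + 1) * H) ?_
      ⟨0, ⟨0, by simp⟩, by simp⟩ ?_
    · rintro f g ⟨H, h1, rfl⟩ ⟨H', h2, rfl⟩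
      exact ⟨H + H', h1.add h2, by ring⟩
    intro x hx
    obtain ⟨hne, hx⟩ := mem_erase.1 hx
    rw [mem_Ix] at hx
    by_cases h : x.1 < q.1 ∨ x.2 < q.2
    · exact ⟨0, ⟨0, by simp⟩, by simp [KK_eq_zero fu fv h]⟩
    obtain ⟨G', hG', hGe'⟩ := hc.2 1 x hx
    have hd : 1 ≤ lev x - lev q := by
      simp only [lev]
      by_contra hlt
      exact hne (Prod.ext (by omega) (by omega))
    set d := lev x - lev q with hdd
    set j := min m (k - lev x) with hj
    have hle : m + 1 ≤ d + j := by omega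
    have hfF := isPol_of_mem fF_mem
    refine ⟨fF ^ (d + j - (m + 1)) * (gG ^ d * ft 0 ^ (5 * (k - lev x)) *
      KK fu fv q x * G'), (hfF.pow _).mul ((((isPol_gG.pow _).mul
        ((isPol_of_mem (ft_mem 0)).pow _)).mul ((isPol_of_mem (K1_fu_mem _ _ (by omega))).mul
          (isPol_of_mem (K1_fv_mem _ _ (by omega))))).mul (isPol_of_mem hG')), ?_⟩
    rw [hGe', ← mul_assoc (fF ^ (m + 1)), ← pow_add, show m + 1 + (d + j - (m + 1)) = d + j by omega,
      pow_add, mul_pow]
    ring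
  obtain ⟨H, hH, hsum⟩ := hsum
  have ht := Tt_transform k q c
  rw [← add_sum_erase _ _ (mem_Ix.2 (by omega : lev q ≤ k)), hsum, hGe, hGe, KK_self,
    Nat.sub_self] at ht
  set M := 5 * (k - lev q) with hM
  have key : ft 1 ^ M * G 0 = ft 0 ^ M * G 1 + fF * H := by
    refine fF_pow_cancel (m := m) (((isPol_of_mem (ft_mem 1)).pow _).mul (isPol_of_mem (hG 0)))
      ((((isPol_of_mem (ft_mem 0)).pow _).mul (isPol_of_mem (hG 1))).add
        ((isPol_of_mem fF_mem).mul hH)) ?_
    linear_combination ht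
  have key2 := congrArg diag key
  simp only [map_mul, map_add, map_pow, diag_ft, diag_fF, zero_mul, add_zero] at key2
  have hn : outA k q - m + (outB k q - m) =
      alpha + beta + 5 * k - 2 * m - 3 * lev q + M := by
    simp only [outA, outB, alpha, beta] at *; omega
  obtain ⟨σ, hσ, h0, h1⟩ := exists_quotient (V_congr (diag_mem (hG 0)) rfl hn)
    (V_congr (diag_mem (hG 1)) rfl hn) key2
  refine ⟨σ, hσ, fun b => ?_⟩
  fin_cases b
  · exact h0
  · exact h1

/-- One step of the correction; only levels in `[t, t + (k - m) - 1]` change. -/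
lemma exists_next {k m t : ℕ} {c : ℕ × ℕ → Fn} (hm : m < k) (hc : Inv k m c)
    (hD : 3 * (t + (k - m)) + 5 ≤ alpha + beta + 5 * k - 2 * m)
    (htk : t + (k - m) - 1 ≤ k)
    (hA : ∀ al, t ≤ lev al → lev al ≤ t + (k - m) - 1 → m ≤ degA k al)
    (hB : ∀ al, t ≤ lev al → lev al ≤ t + (k - m) - 1 → m + 6 ≤ degB al) :
    ∃ c', Inv k (m + 1) c' ∧
      ∀ al, (lev al < t ∨ t + (k - m) - 1 < lev al) → c' al = c al := by
  classical
  have hG : ∀ q b, ∃ G, lev q ≤ k → (G ∈ W (lev q : ℕ) (outA k q - min m (k - lev q))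
      (outB k q - min m (k - lev q)) ∧ Tt k b q c = fF ^ min m (k - lev q) * G) := by
    intro q b
    by_cases h : lev q ≤ k
    · obtain ⟨G, h1, h2⟩ := hc.2 b q h; exact ⟨G, fun _ => ⟨h1, h2⟩⟩
    · exact ⟨0, fun h' => absurd h' h⟩
  choose G hG using hG
  have hres : ∀ q, ∃ σ, lev q < k - m →
      (σ ∈ V (lev q : ℕ) (alpha + beta + 5 * k - 2 * m - 3 * lev q) ∧
        ∀ b, diag (G q b) = ct b ^ (5 * (k - lev q)) * σ) := by
    intro q
    by_cases h : lev q < k - m
    · have hmin : min m (k - lev q) = m := by omega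
      obtain ⟨σ, h1, h2⟩ := exists_residual hc q h (G q)
        (fun b => by simpa [hmin] using (hG q b (by omega)).1)
        (fun b => by simpa [hmin] using (hG q b (by omega)).2)
      exact ⟨σ, fun _ => ⟨h1, h2⟩⟩
    · exact ⟨0, fun h' => absurd h' h⟩
  choose σ hσ using hres
  obtain ⟨E, hE, hS⟩ := exists_correction (n := k - m) (t := t) hD (fun q => -σ q)
    (fun q hq => neg_mem (hσ q hq).1)
  have hlift : ∀ al, ∃ e : Fn, (E al = 0 → e = 0) ∧ (E al ≠ 0 →
      t ≤ lev al ∧ lev al ≤ t + (k - m) - 1 ∧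
        e ∈ W (lev al : ℕ) (degA k al - m) (degB al - m)) ∧ diag e = E al := by
    intro al
    rcases hE al with h | ⟨h1, h2, n, hn, h⟩
    · exact ⟨0, fun _ => rfl, fun h' => absurd h h', by simp [h]⟩
    by_cases h0 : E al = 0
    · exact ⟨0, fun _ => rfl, fun h' => absurd h0 h', by simp [h0]⟩
    have a1 := hA al h1 h2
    have b1 := hB al h1 h2
    obtain ⟨e, he, hde⟩ := exists_lift (A := degA k al - m) (B := degB al - m) (by omega)
      (V_congr h (zero_add _) (by simp only [degA, degB, alpha, beta] at *; omega))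
    exact ⟨e, fun h' => absurd h' h0, fun _ => ⟨h1, h2, he⟩, hde⟩
  choose e he0 he hde using hlift
  have hes : Shifted k m e := by
    intro al _
    by_cases h : E al = 0
    · exact Or.inl (he0 al h)
    · obtain ⟨h1, h2, h3⟩ := he al h
      exact Or.inr ⟨hA al h1 h2, (Nat.le_add_right _ _).trans (hB al h1 h2), h3⟩
  refine ⟨c + fun al => fF ^ m * e al, ⟨fun al hal => ?_, fun b q hq => ?_⟩, fun al hal => ?_⟩
  · have h1 : c al ∈ W (lev al : ℕ) (degA k al) (degB al) := by
      rcases hc.1 al hal with h | ⟨-, -, h⟩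
      · rw [h]; exact zero_mem _
      · simpa using h
    refine Or.inr ⟨Nat.zero_le _, Nat.zero_le _, add_mem h1 ?_⟩
    dsimp only
    rcases hes al hal with h | ⟨a1, b1, h⟩
    · simp [h]
    · exact W_congr (W_mul (W_pow fF_mem m) h) (by simp) (by omega) (by omega)
  · obtain ⟨g1, g2⟩ := hG q b hq
    have hT := Tt_mem hes b q
    rw [Tt_add, Tt_mul, g2]
    rcases lt_or_ge (lev q) (k - m) with h | h
    · have hmin : min m (k - lev q) = m := by omega
      have hmin' : min (m + 1) (k - lev q) = m + 1 := by omega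
      rw [hmin] at g1 ⊢
      rw [hmin']
      obtain ⟨A', hA'⟩ : ∃ A', outA k q - m = A' + 1 :=
        ⟨outA k q - m - 1, by simp only [outA, alpha] at *; omega⟩
      obtain ⟨B', hB'⟩ : ∃ B', outB k q - m = B' + 1 :=
        ⟨outB k q - m - 1, by simp only [outB, beta] at *; omega⟩
      obtain ⟨g, hg, hge⟩ := exists_div_fF (f := G q b + Tt k b q e)
        (W_congr (add_mem g1 hT) rfl hA' hB') (by
          rw [map_add, (hσ q h).2 b]
          have hd : diag (Tt k b q e) = ct b ^ (5 * (k - lev q)) * S q E := by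
            rw [Tt, map_sum, S, Finsupp.sum_of_support_subset (s := Ix k) E ?_ _ (fun _ _ => mul_zero _),
              mul_sum]
            · refine sum_congr rfl fun al hal => ?_
              rw [mem_Ix] at hal
              simp only [map_mul, map_pow, diag_fz, diag_ft, hde]
              by_cases hlt : al.1 < q.1 ∨ al.2 < q.2
              · simp [KK_eq_zero _ _ hlt]
              rw [← pow_add, show 5 * (lev al - lev q) + 5 * (k - lev al) = 5 * (k - lev q) by
                simp only [lev] at *; omega]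
              simp only [KK, K1, map_mul, map_pow, map_neg, map_natCast, diag_fu, diag_fv]
              ring
            · intro al hal
              have := (he al (Finsupp.mem_support_iff.1 hal)).2.1
              exact mem_Ix.2 (by omega)
          rw [hd, hS q h]; ring)
      refine ⟨g, W_congr hg rfl (by omega) (by omega), ?_⟩
      rw [← mul_add, hge]; ring
    · have hmin : min m (k - lev q) = k - lev q := by omega
      have hmin' : min (m + 1) (k - lev q) = k - lev q := by omega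
      rw [hmin] at g1 ⊢
      rw [hmin']
      set r := m - (k - lev q) with hr
      refine ⟨G q b + fF ^ r * Tt k b q e, add_mem g1 ?_, ?_⟩
      · rcases Tt_eq_zero_or hes b q with h0 | ⟨hA', hB'⟩
        · simp [h0]
        exact W_congr (W_mul (W_pow fF_mem r) hT) (by simp) (by omega) (by omega)
      rw [show m = (k - lev q) + r by omega, pow_add]; ring
  · show c al + fF ^ m * e al = c al
    by_cases h : E al = 0
    · simp [he0 al h]
    · obtain ⟨h1, h2, -⟩ := he al h; omega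

/-- All steps, from the top or from the bottom. -/
lemma exists_inv {k : ℕ} {c : ℕ × ℕ → Fn} (hc : Shifted k 0 c) (s : ℕ) (hs : s ≤ 1) :
    ∃ c', Inv k k c' ∧ ∀ al, (lev al < s ∨ k - 1 + s < lev al) → c' al = c al := by
  suffices H : ∀ m ≤ k, ∃ c', Inv k m c' ∧
      ∀ al, (lev al < s ∨ k - 1 + s < lev al) → c' al = c al from H k le_rfl
  intro m
  induction m with
  | zero => exact fun _ => ⟨c, inv_zero hc, fun _ _ => rfl⟩
  | succ m ih =>
    intro hm
    obtain ⟨c1, h1, h1'⟩ := ih (by omega)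
    obtain ⟨c2, h2, h2'⟩ := exists_next (t := m / 2 + s) (by omega) h1
      (by simp only [alpha, beta]; omega) (by omega)
      (fun al a b => by simp only [degA, alpha]; omega)
      (fun al a b => by simp only [degB, beta]; omega)
    exact ⟨c2, h2, fun al hal => by rw [h2' al (by omega), h1' al hal]⟩

end Vale.Agent.P296.Alg
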